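import Vale.Agent.P366.H707.Psi
import Vale.Agent.P366.T1.Area

/-! Cauchy-Schwarz with the cofactor matrix. -/

open MeasureTheory Metric Filter Topology Set
open scoped ContDiff ENNReal

noncomputable section
namespace Vale.Agent.P366.H707

open Vale.Agent.P366 (E)
open Vale.Agent.P366.Stmt (mat)

/-- The quadratic form of the cofactor matrix of the metric at the differential of `F`. -/
def adjq {n : ℕ} (g : Stmt.Field n) (F : E n → ℝ) (y : E n) : ℝ :=
  ∑ i, ∑ j, (mat g y).adjugate i j * Stmt.pd i F y * Stmt.pd j F y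

lemma adj_cs {n : ℕ} {M : Matrix (Fin n) (Fin n) ℝ} (hM : M.PosDef) (p v : Fin n → ℝ) :
    M.det * (∑ i, p i * v i) ^ 2 ≤ (∑ i, ∑ j, M.adjugate i j * p i * p j) *
      ∑ i, ∑ j, M i j * v i * v j := by
  have hsym : M.transpose = M := by
    ext i j
    have := hM.1.apply i j
    simpa using this
  have hD := hM.det_pos
  have ea : ∑ i, ∑ j, M.adjugate i j * p i * p j = p ⬝ᵥ M.adjugate.mulVec p := by
    simp only [dotProduct, Matrix.mulVec, Finset.mul_sum]
    exact Finset.sum_congr rfl fun i _ => Finset.sum_congr rfl fun j _ => by ring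
  have eq : ∑ i, ∑ j, M i j * v i * v j = v ⬝ᵥ M.mulVec v := by
    simp only [dotProduct, Matrix.mulVec, Finset.mul_sum]
    exact Finset.sum_congr rfl fun i _ => Finset.sum_congr rfl fun j _ => by ring
  have ec : ∑ i, p i * v i = p ⬝ᵥ v := rfl
  rw [ea, eq, ec]
  set z := M.adjugate.mulVec p with hz
  have hMz : M.mulVec z = M.det • p := by
    rw [hz, Matrix.mulVec_mulVec, Matrix.mul_adjugate, Matrix.smul_mulVec, Matrix.one_mulVec]
  have key : ∀ t : ℝ, 0 ≤ M.det * (p ⬝ᵥ z) * (t * t) + 2 * M.det * (p ⬝ᵥ v) * t +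
      v ⬝ᵥ M.mulVec v := by
    intro t
    have h := hM.posSemidef.dotProduct_mulVec_nonneg (v + t • z)
    rw [star_trivial, Matrix.mulVec_add, Matrix.mulVec_smul, hMz] at h
    have e1 : z ⬝ᵥ M.mulVec v = M.det * (p ⬝ᵥ v) := by
      rw [Matrix.dotProduct_mulVec, ← Matrix.mulVec_transpose, hsym, hMz, smul_dotProduct,
        smul_eq_mul]
    have e2 : v ⬝ᵥ p = p ⬝ᵥ v := dotProduct_comm _ _
    have e3 : z ⬝ᵥ p = p ⬝ᵥ z := dotProduct_comm _ _
    simp only [add_dotProduct, dotProduct_add, smul_dotProduct, dotProduct_smul, smul_eq_mul, e1,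
      e2, e3] at h
    linarith
  have hdis := discrim_le_zero key
  unfold discrim at hdis
  have h4 : M.det * (M.det * (p ⬝ᵥ v) ^ 2) ≤ M.det * ((p ⬝ᵥ z) * (v ⬝ᵥ M.mulVec v)) := by
    nlinarith
  exact le_of_mul_le_mul_left h4 hD

end Vale.Agent.P366.H707
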