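import Vale.Agent.P366.H707.X6
import Vale.Agent.P366.H222.X0d

/-! The area of the boundary of a Kerr-Schild exterior. -/

open MeasureTheory Metric Filter Topology Set
open scoped ContDiff ENNReal

noncomputable section
namespace Vale.Agent.P366.KS

open Vale.Agent.P366 (pd E)
open Vale.Agent.P366.H353
open Vale.Agent.P366.H707 (adjq Par dW)

variable {C : Cone} {lam f : E 3 → ℝ} {V : E 4 → ℝ} {D : Stmt.Exterior 3} {x y z : E 3} {s t : ℝ}

lemma Psi_eq (C : Cone) (hz : z ≠ 0) : Vale.Agent.P366.H707.Psi C.H z = Psi C.H z := by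
  ext i
  rw [Psi_apply C hz]
  rfl

lemma Psi_ray_deriv (C : Cone) (hx : ‖x‖ = 1) (hs : 0 < s) :
    fderiv ℝ (Psi C.H) (s • x) x = x := by
  ext i
  rw [fderiv_Psi_Y C hx hs x i, Ws_x C hx i]
  have h := Vale.Agent.P366.H707.sum_sq hx
  have h2 : ∑ j, x j * x j = 1 := by
    simp only [Fin.sum_univ_three] at h ⊢
    linear_combination h
  rw [h2]; ring

/-- Differentials at a boundary point of functions vanishing on the boundary. -/
lemma bdr_curve (C : Cone) (hx : ‖x‖ = 1) (w : E 3) : ∃ κ : ℝ, ∀ G : E 3 → ℝ,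
    DifferentiableAt ℝ G (Y C.H x (C.U x)) →
    (∀ z, z ≠ 0 → ‖z‖ = C.U z → G (Psi C.H z) = 0) →
    fderiv ℝ G (Y C.H x (C.U x)) (fderiv ℝ (Psi C.H) (C.U x • x) w) =
      κ * fderiv ℝ G (Y C.H x (C.U x)) x := by
  have h0 := posU' C hx
  have hx0 := ne_zero_of_one hx
  set u := C.U x with hu
  set z0 : E 3 := u • x with hz0d
  have hz0 : z0 ≠ 0 := smul_ne_zero h0.ne' hx0
  have hn0 : ‖z0‖ = u := norm_smul_unit hx h0.le
  have hUz0 : C.U z0 = u := U_smul C hx0 h0
  -- the curve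
  have hz : HasDerivAt (fun t : ℝ => z0 + t • w) w 0 := by
    simpa using ((hasDerivAt_id (0:ℝ)).smul_const w).const_add z0
  have ha : ∃ a' : ℝ, HasDerivAt (fun t : ℝ => C.U (z0 + t • w) / ‖z0 + t • w‖) a' 0 := by
    have hz0' : z0 + (0:ℝ) • w ≠ 0 := by simpa using hz0
    have hnd : DifferentiableAt ℝ (fun z : E 3 => ‖z‖) (z0 + (0:ℝ) • w) :=
      (Sm.norm _ hz0').differentiableAt (by simp)
    have h1 : DifferentiableAt ℝ (fun z : E 3 => C.U z * (‖z‖)⁻¹) (z0 + (0:ℝ) • w) :=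
      (C.smU.diff hz0').mul (hnd.inv (norm_ne_zero_iff.mpr hz0'))
    exact ⟨_, (h1.hasFDerivAt.comp_hasDerivAt 0 hz).congr_of_eventuallyEq
      (Eventually.of_forall fun t => div_eq_mul_inv _ _)⟩
  obtain ⟨a', ha'⟩ := ha
  refine ⟨-(a' * u), fun G hG hG0 => ?_⟩
  have hσ : HasDerivAt (fun t : ℝ => (C.U (z0 + t • w) / ‖z0 + t • w‖) • (z0 + t • w))
      (w + a' • z0) 0 := by
    have h := ha'.smul hz
    refine h.congr_deriv ?_
    simp only [zero_smul, add_zero, hUz0, hn0, div_self h0.ne', one_smul]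
  have hσ0 : (C.U (z0 + (0:ℝ) • w) / ‖z0 + (0:ℝ) • w‖) • (z0 + (0:ℝ) • w) = z0 := by
    simp only [zero_smul, add_zero, hUz0, hn0, div_self h0.ne', one_smul]
  have hP : HasFDerivAt (Psi C.H) (fderiv ℝ (Psi C.H) z0)
      ((C.U (z0 + (0:ℝ) • w) / ‖z0 + (0:ℝ) • w‖) • (z0 + (0:ℝ) • w)) := by
    rw [hσ0]
    exact ((Psi_contDiffAt C hz0).differentiableAt (by simp)).hasFDerivAt
  have hPσ := hP.comp_hasDerivAt (0:ℝ) hσ
  have hG' : HasFDerivAt G (fderiv ℝ G (Y C.H x u))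
      ((Psi C.H ∘ fun t : ℝ => (C.U (z0 + t • w) / ‖z0 + t • w‖) • (z0 + t • w)) 0) := by
    simp only [Function.comp]
    rw [hσ0, Y_eq C hx h0]
    exact hG.hasFDerivAt
  have hGσ := hG'.comp_hasDerivAt (0:ℝ) hPσ
  have hzero : (G ∘ (Psi C.H ∘ fun t : ℝ => (C.U (z0 + t • w) / ‖z0 + t • w‖) • (z0 + t • w)))
      =ᶠ[𝓝 0] fun _ => (0:ℝ) := by
    have hc : ContinuousAt (fun t : ℝ => z0 + t • w) 0 := hz.continuousAt
    have hne : ∀ᶠ t in 𝓝 (0:ℝ), z0 + t • w ≠ 0 := by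
      refine hc.eventually_ne ?_
      simpa using hz0
    filter_upwards [hne] with t ht
    have hUp := C.posU _ ht
    have hnp : 0 < ‖z0 + t • w‖ := norm_pos_iff.mpr ht
    have hq : 0 < C.U (z0 + t • w) / ‖z0 + t • w‖ := div_pos hUp hnp
    refine hG0 _ (smul_ne_zero hq.ne' ht) ?_
    rw [C.homU _ ht _ hq, norm_smul, Real.norm_eq_abs, abs_of_pos hq]
    simp only [zpow_zero, one_mul]
    field_simp
  have h2 := hGσ.unique ((hasDerivAt_const (0:ℝ) (0:ℝ)).congr_of_eventuallyEq hzero)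
  rw [map_add, map_add, hz0d, map_smul, map_smul, map_smul, map_smul,
    Psi_ray_deriv C hx h0] at h2
  simp only [smul_eq_mul] at h2
  linarith

/-- On the boundary the differential of the defining function is proportional to that of
`f + λ`. -/
lemma bdr_grad (hS : IsSlice C lam V f D) (hx : ‖x‖ = 1) (i : Fin 3) :
    (1 + dL lam f (Y C.H x (C.U x))) * pd i D.F (Y C.H x (C.U x)) =
      (∑ j, pd j D.F (Y C.H x (C.U x)) * x j) *
        (pd i f (Y C.H x (C.U x)) + pd i lam (Y C.H x (C.U x))) := by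
  set y0 := Y C.H x (C.U x) with hy0
  have h0 := posU' C hx
  have hmem : 0 ≤ D.F y0 := mem_Y hS hx le_rfl
  have hFd : DifferentiableAt ℝ D.F y0 := (D.dom.1.differentiable (by simp)) y0
  have hfd := f_diff hS hmem
  have hld := lam_diff hS hmem
  have hφd : DifferentiableAt ℝ (fun y => f y + lam y) y0 := hfd.add hld
  have hFz : ∀ z, z ≠ 0 → ‖z‖ = C.U z → D.F (Psi C.H z) = 0 := fun z hz hz1 => (hS.bdr z hz hz1).1
  have hφz : ∀ z, z ≠ 0 → ‖z‖ = C.U z → (fun y => f y + lam y) (Psi C.H z) = 0 := by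
    intro z hz hz1
    simp only
    rw [(hS.bdr z hz hz1).2, hS.eqL z hz hz1.ge, hz1]; ring
  have hφx : fderiv ℝ (fun y => f y + lam y) y0 x = 1 + dL lam f y0 := by
    rw [fderiv_fun_add hfd hld, add_apply, fderiv_eq_sum_pd, fderiv_eq_sum_pd,
      dL_Y hS hx le_rfl]
    have h2 : ∑ j, pd j lam y0 * x j = 1 := by
      simp only [pd_lam_Y hS hx le_rfl, hy0]
      have h := Vale.Agent.P366.H707.sum_sq hx
      simp only [Fin.sum_univ_three] at h ⊢
      linear_combination h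
    have h3 : ∀ g : E 3 → ℝ, ∑ j, x j * pd j g y0 = ∑ j, pd j g y0 * x j := fun g =>
      Finset.sum_congr rfl fun j _ => mul_comm _ _
    simp only [mul_comm (x _)] at *
    rw [h2]; ring
  have hsurj : Function.Surjective (fderiv ℝ (Psi C.H) (C.U x • x)) := by
    have hinj : Function.Injective ((fderiv ℝ (Psi C.H) (C.U x • x) : E 3 →L[ℝ] E 3) : E 3 →ₗ[ℝ] E 3) := by
      rw [← LinearMap.ker_eq_bot, LinearMap.ker_eq_bot']
      intro v hv
      exact fderiv_Psi_inj C hx le_rfl hv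
    exact LinearMap.injective_iff_surjective.mp hinj
  obtain ⟨w, hw⟩ := hsurj (EuclideanSpace.single i 1)
  obtain ⟨κ, hκ⟩ := bdr_curve C hx w
  have e1 := hκ _ hFd hFz
  have e2 := hκ _ hφd hφz
  rw [hw] at e1 e2
  rw [hφx] at e2
  have e3 : fderiv ℝ (fun y => f y + lam y) y0 (EuclideanSpace.single i 1) =
      pd i f y0 + pd i lam y0 := by
    rw [fderiv_fun_add hfd hld]; rfl
  have e4 : fderiv ℝ D.F y0 (EuclideanSpace.single i 1) = pd i D.F y0 := rfl
  have e5 : fderiv ℝ D.F y0 x = ∑ j, pd j D.F y0 * x j := by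
    rw [fderiv_eq_sum_pd]
    exact Finset.sum_congr rfl fun j _ => mul_comm _ _
  rw [e3] at e2
  rw [e4, e5] at e1
  rw [e1, e2]; ring

/-- The quadratic form of the cofactor matrix at the conormal. -/
lemma adj_alg {l g : Fin 3 → ℝ} {v : ℝ} (hl : ∑ i, l i ^ 2 = 1) :
    ∑ i, ∑ j, (Matrix.of fun i j => kd i j - g i * g j + v * (g i + l i) * (g j + l j)).adjugate i j *
      (g i + l i) * (g j + l j) = (1 + ∑ i, l i * g i) ^ 2 := by
  rw [Matrix.adjugate_fin_three]
  simp only [Matrix.of_apply, Fin.sum_univ_three, Matrix.cons_val', Matrix.cons_val_zero,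
    Matrix.cons_val_one, Matrix.cons_val, Matrix.empty_val', Matrix.cons_val_fin_one] at *
  simp only [kd, show (0 : Fin 3) = 1 ↔ False by decide, show (0 : Fin 3) = 2 ↔ False by decide,
    show (1 : Fin 3) = 0 ↔ False by decide, show (1 : Fin 3) = 2 ↔ False by decide,
    show (2 : Fin 3) = 0 ↔ False by decide, show (2 : Fin 3) = 1 ↔ False by decide,
    if_true, if_false]
  linear_combination (1 - (g 0 ^ 2 + g 1 ^ 2 + g 2 ^ 2)) * hl

lemma bdr_dF_pos (hS : IsSlice C lam V f D) (hx : ‖x‖ = 1) :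
    0 < ∑ j, pd j D.F (Y C.H x (C.U x)) * x j := by
  set y0 := Y C.H x (C.U x) with hy0
  have h0 := posU' C hx
  have hmem : 0 ≤ D.F y0 := mem_Y hS hx le_rfl
  have hF0 : D.F y0 = 0 := (f_bdr hS hx).2
  have hFd : DifferentiableAt ℝ D.F y0 := (D.dom.1.differentiable (by simp)) y0
  have hY : HasDerivAt (Y C.H x) x (C.U x) := by
    have h2 : Y C.H x = fun s => Y C.H x 0 + s • x := by
      funext s
      ext i
      simp [Y_apply]
    rw [h2]
    simpa using ((hasDerivAt_id (C.U x)).smul_const x).const_add (Y C.H x 0)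
  have hc := hFd.hasFDerivAt.comp_hasDerivAt (C.U x) hY
  have e5 : fderiv ℝ D.F y0 x = ∑ j, pd j D.F y0 * x j := by
    rw [fderiv_eq_sum_pd]
    exact Finset.sum_congr rfl fun j _ => mul_comm _ _
  rw [e5] at hc
  have hge : 0 ≤ ∑ j, pd j D.F y0 * x j := by
    have h1 := (hasDerivWithinAt_iff_tendsto_slope' (s := Ioi (C.U x)) (by simp)).mp
      (hc.hasDerivWithinAt (s := Ioi (C.U x)))
    refine ge_of_tendsto h1 ?_
    filter_upwards [self_mem_nhdsWithin] with r hr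
    have hr : C.U x < r := hr
    rw [slope_def_field]
    refine div_nonneg ?_ (by linarith)
    simp only [Function.comp]
    rw [← hy0, hF0, sub_zero]
    exact mem_Y hS hx hr.le
  refine lt_of_le_of_ne hge fun hz => ?_
  obtain ⟨i, hi⟩ := D.dom.2.1 y0 hF0
  apply hi
  rw [Vale.Agent.P366.Bridge.pd_eq hFd i]
  have h2 := bdr_grad hS hx i
  rw [← hy0, ← hz, zero_mul] at h2
  exact (mul_eq_zero.mp h2).resolve_left (dL_pos hS hmem).ne'

/-- The area of the boundary. -/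
theorem area_le (hS : IsSlice C lam V f D) (_hV : ∀ p ∈ Region lam f D, ContDiffAt ℝ ∞ V p) :
    D.Amin ≤ ENNReal.ofReal (S2 C.dt) := by
  have hdt : ∀ x : E 3, ‖x‖ = 1 → 0 ≤ dW C.H (C.U x) x := fun x hx => (det2_Ws_pos C hx le_rfl).le
  have hS2 : S2 C.dt = S2 fun x => dW C.H (C.U x) x := rfl
  rw [hS2]
  refine le_trans (sInf_le ⟨D.F, D.dom, fun x hx => hx, rfl⟩) ?_
  refine Vale.Agent.P366.H707.area_le D C.smH C.homH C.smU C.homU (fun x hx => posU' C hx) hdt
    ?_ ?_ ?_ ?_ ?_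
  · intro a ha b hb hab
    rw [Psi_eq C ha.1, Psi_eq C hb.1] at hab
    exact C.inj ha hb hab
  · intro y hy
    obtain ⟨x, hx0, hx1, rfl⟩ := (hS.dom y).mp hy
    exact ⟨x, ⟨hx0, hx1⟩, Psi_eq C hx0⟩
  · intro x hx
    rw [Psi_eq C hx.1]
    exact Psi_mem hS hx.1 hx.2
  · intro z hz hF
    rw [Psi_eq C hz.1] at hF
    obtain ⟨x, hx, hzx⟩ := exists_unit hz.1
    have hn : 0 < ‖z‖ := norm_pos_iff.mpr hz.1
    have hUz : C.U z = C.U x := by rw [hzx, U_smul C (ne_zero_of_one hx) hn]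
    by_contra hne
    have hlt : C.U x < ‖z‖ := by rw [← hUz]; exact lt_of_le_of_ne hz.2 hne
    have := F_pos hS hx hlt
    rw [← Y_eq C hx hn, ← hzx] at this
    exact this.ne' hF
  · intro z hz0 hUz
    obtain ⟨x, hx, hzx⟩ := exists_unit hz0
    have hn : 0 < ‖z‖ := norm_pos_iff.mpr hz0
    have hUx : C.U x = ‖z‖ := by rw [← hUz, hzx, U_smul C (ne_zero_of_one hx) hn]
    have hY : Vale.Agent.P366.H707.Psi C.H z = Y C.H x (C.U x) := by
      rw [Psi_eq C hz0, hUx, ← Y_eq C hx hn, ← hzx]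
    rw [hY]
    have hzi : ∀ i, z i / ‖z‖ = x i := by
      intro i
      have : z i = ‖z‖ * x i := by
        conv_lhs => rw [hzx]
        simp
      rw [this]; field_simp
    simp only [hzi]
    set y0 := Y C.H x (C.U x) with hy0
    have hFd : DifferentiableAt ℝ D.F y0 := (D.dom.1.differentiable (by simp)) y0
    have hpe : ∀ i, Stmt.pd i D.F y0 = pd i D.F y0 := Vale.Agent.P366.Bridge.pd_eq hFd
    simp only [hpe]
    refine ⟨bdr_dF_pos hS hx, le_of_eq ?_⟩
    have hmem : 0 ≤ D.F y0 := mem_Y hS hx le_rfl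
    have hSp := dL_pos hS hmem
    unfold Vale.Agent.P366.H707.adjq
    simp only [hpe]
    have h2 : Stmt.mat D.g y0 = Matrix.of fun i j => kd i j - pd i f y0 * pd j f y0 +
        V (pt (f y0) y0) * (pd i f y0 + pd i lam y0) * (pd j f y0 + pd j lam y0) := by
      ext i j
      rw [Matrix.of_apply, ← indG_eq (lam_diff hS hmem) (f_diff hS hmem), ← hS.met y0 hmem i j]
      rfl
    rw [h2]
    set a := ∑ j, pd j D.F y0 * x j with ha
    have hgr : ∀ i, pd i D.F y0 = a / (1 + dL lam f y0) * (pd i f y0 + pd i lam y0) := by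
      intro i
      have h := bdr_grad hS hx i
      rw [← hy0, ← ha] at h
      rw [div_mul_eq_mul_div, eq_div_iff hSp.ne']
      linarith
    have h3 := adj_alg (g := fun i => pd i f y0) (v := V (pt (f y0) y0)) (gsq_lam' hS hmem)
    have h4 : (1 + ∑ i, pd i lam y0 * pd i f y0) = 1 + dL lam f y0 := rfl
    rw [h4] at h3
    set A := (Matrix.of fun i j => kd i j - pd i f y0 * pd j f y0 +
        V (pt (f y0) y0) * (pd i f y0 + pd i lam y0) * (pd j f y0 + pd j lam y0)).adjugate with hA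
    have h5 : ∑ i, ∑ j, A i j * pd i D.F y0 * pd j D.F y0 = (a / (1 + dL lam f y0)) ^ 2 *
        ∑ i, ∑ j, A i j * (pd i f y0 + pd i lam y0) * (pd j f y0 + pd j lam y0) := by
      rw [Finset.mul_sum]
      refine Finset.sum_congr rfl fun i _ => ?_
      rw [Finset.mul_sum]
      refine Finset.sum_congr rfl fun j _ => ?_
      rw [hgr i, hgr j]; ring
    rw [h5, h3]
    field_simp

end Vale.Agent.P366.KS
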