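import Vale.Agent.P366.H707.Cone
import Vale.Agent.P366.H707.C2
import Vale.Agent.P366.H375.C1

/-! The Aleksandrov-Bakelman-Pucci inequality on the sphere. -/

open MeasureTheory Metric Filter Topology Set
open scoped ContDiff

noncomputable section
namespace Vale.Agent.P366.H707

open Vale.Agent.P366 (sphI sphM pd E polar pd_add pd_sub pd_mul pd_const pd_coord)
open Vale.Agent.P366.H353

/-- `‖z‖² |∇ q|²`: homogeneous of degree zero. -/
def ss (q : E 3 → ℝ) (z : E 3) : ℝ := ‖z‖ ^ 2 * gsq q z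

/-- `cos (θ/2)`, homogeneous of degree zero. -/
def CC (q : E 3 → ℝ) (z : E 3) : ℝ := √(1 - ss q z / 4)

/-- components of the homogeneous transport map -/
def TH (q : E 3 → ℝ) (i : Fin 3) (z : E 3) : ℝ :=
  (1 - ss q z / 2) * z i + CC q z * (‖z‖ ^ 2 * pd i q z)

/-- the homogeneous transport map -/
def That (q : E 3 → ℝ) (z : E 3) : E 3 := WithLp.toLp 2 fun i => TH q i z

variable {q : E 3 → ℝ}

lemma sm_ss (hq : Q q) : Sm (ss q) := (Sm.norm.pow 2).mul hq.sm.gsq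

lemma ss_one {x : E 3} (hx : ‖x‖ = 1) : ss q x = gsq q x := by simp [ss, hx]

lemma CC_one {x : E 3} (hx : ‖x‖ = 1) : CC q x = cc q x := by simp [CC, cc, ss_one hx]

lemma diff_CC (hq : Q q) {z : E 3} (hz : z ≠ 0) (hs : ss q z < 4) :
    DifferentiableAt ℝ (CC q) z := by
  have h1 : DifferentiableAt ℝ (fun w => 1 - ss q w / 4) z :=
    ((Sm.const 1).sub ((sm_ss hq).div (Sm.const 4) (fun _ _ => by norm_num))).diff hz
  exact h1.sqrt (by linarith)

lemma pd_nsq {z : E 3} (j : Fin 3) : pd j (fun w : E 3 => ‖w‖ ^ 2) z = 2 * z j := by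
  have h : HasFDerivAt (fun w : E 3 => ‖w‖ ^ 2) (2 • innerSL ℝ z) z :=
    (hasStrictFDerivAt_norm_sq z).hasFDerivAt
  unfold pd
  rw [h.fderiv]
  simp [EuclideanSpace.inner_single_right]

lemma pd_ss (hq : Q q) {x : E 3} (hx : ‖x‖ = 1) (j : Fin 3) :
    pd j (ss q) x = 2 * x j * gsq q x + 2 * ∑ k, pd k q x * hs q j k x := by
  have hx0 := ne0 hx
  have h1 : pd j (ss q) x = ‖x‖ ^ 2 * pd j (gsq q) x + pd j (fun w => ‖w‖ ^ 2) x * gsq q x :=
    pd_mul' (Sm.norm.pow 2) hq.sm.gsq hx0 j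
  have h2 : pd j (gsq q) x = 2 * ∑ k, pd k q x * hs q j k x := by
    have h3 : pd j (gsq q) x = ∑ k, pd j (fun w => pd k q w ^ 2) x :=
      pd_sum' Finset.univ (fun k => (hq.sm.pd k).pow 2) hx0 j
    rw [h3, Finset.mul_sum]
    refine Finset.sum_congr rfl fun k _ => ?_
    have h4 : pd j (fun w => pd k q w ^ 2) x = pd j (fun w => pd k q w * pd k q w) x := by
      congr 1; funext w; ring
    rw [h4, pd_mul' (hq.sm.pd k) (hq.sm.pd k) hx0 j]
    unfold hs; ring
  rw [h1, h2, pd_nsq, hx]; ring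

lemma pd_CC (hq : Q q) {x : E 3} (hx : ‖x‖ = 1) (hs : gsq q x < 4) (j : Fin 3) :
    pd j (CC q) x = - pd j (ss q) x / (8 * cc q x) := by
  have hx0 := ne0 hx
  have hs' : ss q x < 4 := by rw [ss_one hx]; exact hs
  have h1 : HasFDerivAt (fun w => 1 - ss q w / 4) (-((4:ℝ)⁻¹ • fderiv ℝ (ss q) x)) x := by
    have := (((sm_ss hq).diff hx0).hasFDerivAt.mul_const (4:ℝ)⁻¹).const_sub (1:ℝ)
    simpa [div_eq_mul_inv] using this
  have h2 := h1.sqrt (by linarith)
  have h3 : fderiv ℝ (CC q) x = (1 / (2 * √(1 - ss q x / 4))) • -((4:ℝ)⁻¹ • fderiv ℝ (ss q) x) :=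
    h2.fderiv
  unfold pd
  rw [h3]
  have h4 : √(1 - ss q x / 4) = cc q x := by unfold cc; rw [ss_one hx]
  rw [h4]
  simp only [_root_.smul_apply, _root_.neg_apply, smul_eq_mul]
  ring

/-- the Jacobian matrix of the transport map at a point of the unit sphere -/
def Jm (q : E 3 → ℝ) (x : E 3) (i j : Fin 3) : ℝ :=
  ((2 * cc q x ^ 2 - 1) * x i + cc q x * pd i q x) * x j + cc q x * Bq q x i j -
      (pd i q x / (4 * cc q x) + x i) * ∑ k, pd k q x * Bq q x k j

lemma cc_sq {x : E 3} (hs : gsq q x < 4) : cc q x ^ 2 = 1 - gsq q x / 4 :=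
  Real.sq_sqrt (by linarith)

lemma cc_pos {x : E 3} (hs : gsq q x < 4) : 0 < cc q x := Real.sqrt_pos.mpr (by linarith)

lemma diff_TH (hq : Q q) {z : E 3} (hz : z ≠ 0) (hs : ss q z < 4) (i : Fin 3) :
    DifferentiableAt ℝ (TH q i) z := by
  have h1 : DifferentiableAt ℝ (fun w => 1 - ss q w / 2) z :=
    ((Sm.const 1).sub ((sm_ss hq).div (Sm.const 2) (fun _ _ => by norm_num))).diff hz
  exact (h1.mul ((Sm.coord i).diff hz)).add
    ((diff_CC hq hz hs).mul (((Sm.norm.pow 2).mul (hq.sm.pd i)).diff hz))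

lemma pd_TH (hq : Q q) {x : E 3} (hx : ‖x‖ = 1) (hlt : gsq q x < 4) (i j : Fin 3) :
    pd j (TH q i) x = Jm q x i j := by
  have hx0 := ne0 hx
  have hs' : ss q x < 4 := by rw [ss_one hx]; exact hlt
  have h1 : DifferentiableAt ℝ (fun w => 1 - ss q w / 2) x :=
    ((Sm.const 1).sub ((sm_ss hq).div (Sm.const 2) (fun _ _ => by norm_num))).diff hx0
  have h2 : DifferentiableAt ℝ (fun w : E 3 => w i) x := (Sm.coord i).diff hx0
  have h3 : DifferentiableAt ℝ (fun w : E 3 => ‖w‖ ^ 2 * pd i q w) x :=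
    ((Sm.norm.pow 2).mul (hq.sm.pd i)).diff hx0
  have e1 : pd j (fun w => 1 - ss q w / 2) x = - pd j (ss q) x / 2 := by
    have e : pd j (fun w => 1 - ss q w / 2) x = pd j (fun w => (1:ℝ)) x -
      pd j (fun w => (1/2) * ss q w) x := by
      rw [← pd_sub' (Sm.const 1) ((Sm.const (1/2)).mul (sm_ss hq)) hx0 j]
      congr 1; funext w; ring
    rw [e, pd_const, pd_cmul' (sm_ss hq) _ hx0]; ring
  have e2 : pd j (TH q i) x = pd j (fun w => (1 - ss q w / 2) * w i) x +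
      pd j (fun w => CC q w * (‖w‖ ^ 2 * pd i q w)) x :=
    pd_add (h1.mul h2) ((diff_CC hq hx0 hs').mul h3) j
  have e3 := pd_mul h1 h2 j
  have e4 := pd_mul (diff_CC hq hx0 hs') h3 j
  have e5 := pd_mul' (Sm.norm.pow 2) (hq.sm.pd i) hx0 j
  rw [e2, e3, e4, e5, e1, pd_coord', pd_CC hq hx hlt, pd_nsq, pd_ss hq hx, ss_one hx, CC_one hx, hx]
  have hC := cc_pos hlt
  have hC2 := cc_sq hlt
  have hg : gsq q x = 4 * (1 - cc q x ^ 2) := by rw [hC2]; ring
  have hg' : ∑ k, pd k q x ^ 2 = 4 * (1 - cc q x ^ 2) := hg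
  have hxg := xg hq hx0
  have hx2 := sum_sq hx
  have hsy : ∀ k, hs q j k x = hs q k j x := fun k => hs_symm hq.sm hx0 j k
  have hN : pd j (pd i q) x = hs q i j x := hsy i
  have hk : ∑ k, pd k q x * kd k j = pd j q x := by simp [kd]
  have hkd : kd j i = kd i j := by unfold kd; simp only [eq_comm]
  have hS : ∑ k, pd k q x * Bq q x k j =
      (∑ k, pd k q x * hs q k j x) + 4 * (1 - cc q x ^ 2) * x j + cc q x * pd j q x := by
    unfold Bq Zb pr
    simp only [Fin.sum_univ_three] at hg' hxg hk ⊢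
    generalize cc q x = C at *
    field_simp
    have e6 : 4 * C * (pd 0 q x * kd 0 j + pd 1 q x * kd 1 j + pd 2 q x * kd 2 j) =
      4 * C * pd j q x := by rw [hk]
    linear_combination (4 * C * x j + pd j q x) * hg' + (4 * C * pd j q x -
      4 * (2 * C ^ 2 - 1) * x j) * hxg + 4 * (2 * C ^ 2 - 1) * hk
  rw [hg, hN, hkd]
  unfold Jm
  rw [hS]
  simp only [hsy]
  generalize ∑ k, pd k q x * hs q k j x = σ
  unfold Bq Zb pr
  generalize cc q x = C at *
  field_simp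
  ring

/-- homogeneity of the transport map -/
lemma ss_smul (hq : Q q) {z : E 3} (hz : z ≠ 0) {r : ℝ} (hr : 0 < r) :
    ss q (r • z) = ss q z := by
  unfold ss gsq
  rw [norm_smul, Real.norm_eq_abs, abs_of_pos hr]
  have : ∀ i, pd i q (r • z) = r⁻¹ * pd i q z := by
    intro i
    have := Hom.pd hq.sm hq.hom i z hz r hr
    simpa using this
  simp only [this]
  rw [Finset.mul_sum, Finset.mul_sum]
  refine Finset.sum_congr rfl fun i _ => ?_
  field_simp

lemma That_smul (hq : Q q) {z : E 3} (hz : z ≠ 0) {r : ℝ} (hr : 0 < r) :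
    That q (r • z) = r • That q z := by
  ext i
  change TH q i (r • z) = r * TH q i z
  unfold TH CC
  rw [ss_smul hq hz hr, norm_smul, Real.norm_eq_abs, abs_of_pos hr]
  have : pd i q (r • z) = r⁻¹ * pd i q z := by
    have := Hom.pd hq.sm hq.hom i z hz r hr
    simpa using this
  rw [this, PiLp.smul_apply, smul_eq_mul]
  field_simp

/-- the derivative at a point of the unit sphere -/
def Lx (q : E 3 → ℝ) (x : E 3) : E 3 →L[ℝ] E 3 := fderiv ℝ (That q) x

lemma hasFD_one (hq : Q q) {x : E 3} (hx : ‖x‖ = 1) (hlt : gsq q x < 4) :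
    HasFDerivAt (That q) (Lx q x) x := by
  refine DifferentiableAt.hasFDerivAt ?_
  rw [differentiableAt_euclidean]
  intro i
  exact diff_TH hq (ne0 hx) (by rw [ss_one hx]; exact hlt) i

lemma det_Lx (hq : Q q) {x : E 3} (hx : ‖x‖ = 1) (hlt : gsq q x < 4) :
    (Lx q x).det = det2 (Bq q x) := by
  have hL : ∀ i j, (Lx q x (EuclideanSpace.single j 1)) i = Jm q x i j := by
    intro i j
    rw [← pd_TH hq hx hlt i j]
    have h2 : HasFDerivAt (TH q i)
        ((EuclideanSpace.proj (𝕜 := ℝ) i : E 3 →L[ℝ] ℝ).comp (Lx q x)) x :=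
      (EuclideanSpace.proj (𝕜 := ℝ) i : E 3 →L[ℝ] ℝ).hasFDerivAt.comp x (hasFD_one hq hx hlt)
    unfold pd
    rw [h2.fderiv]
    rfl
  have h3 : (Lx q x).det = LinearMap.det ((Lx q x : E 3 →L[ℝ] E 3) : E 3 →ₗ[ℝ] E 3) := rfl
  rw [h3, ← LinearMap.det_toMatrix (EuclideanSpace.basisFun (Fin 3) ℝ).toBasis]
  have h4 : LinearMap.toMatrix (EuclideanSpace.basisFun (Fin 3) ℝ).toBasis
      (EuclideanSpace.basisFun (Fin 3) ℝ).toBasis ((Lx q x : E 3 →L[ℝ] E 3) : E 3 →ₗ[ℝ] E 3) =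
      Matrix.of (Jm q x) := by
    ext i j
    rw [LinearMap.toMatrix_apply]
    simp [hL]
  rw [h4]
  have hx0 := ne0 hx
  have hg : ∑ k, pd k q x ^ 2 = 4 * (1 - cc q x ^ 2) := by
    have : gsq q x = 4 * (1 - cc q x ^ 2) := by rw [cc_sq hlt]; ring
    exact this
  refine jac_alg (x := fun i => x i) (g := fun i => pd i q x) (N := fun i j => hs q i j x)
    (C := cc q x) (sum_sq hx) (xg hq hx0) (fun i j => hs_symm hq.sm hx0 i j)
    (fun i => Nx' hq hx0 i) (cc_pos hlt) hg ?_ ?_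
  · intro i j
    rfl
  · intro i j
    rfl

lemma hasFD_all (hq : Q q) {x : E 3} (hx : ‖x‖ = 1) (hlt : gsq q x < 4) {r : ℝ} (hr : 0 < r) :
    HasFDerivAt (That q) (Lx q x) (r • x) := by
  have hx0 := ne0 hx
  have h1 : HasFDerivAt (fun w : E 3 => r⁻¹ • w) (r⁻¹ • ContinuousLinearMap.id ℝ (E 3)) (r • x) :=
    (hasFDerivAt_id _).const_smul r⁻¹
  have h0 : r⁻¹ • r • x = x := inv_smul_smul₀ hr.ne' x
  have h2 : HasFDerivAt (That q) (Lx q x) (r⁻¹ • r • x) := by rw [h0]; exact hasFD_one hq hx hlt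
  have h3 := (h2.comp (r • x) h1).const_smul r
  have h4 : (That q) =ᶠ[𝓝 (r • x)] fun w => r • (That q ∘ fun w : E 3 => r⁻¹ • w) w := by
    filter_upwards [isOpen_ne.mem_nhds (smul_ne_zero hr.ne' hx0)] with w hw
    simp only [Function.comp]
    rw [That_smul hq hw (inv_pos.mpr hr), smul_inv_smul₀ hr.ne']
  have h5 := h3.congr_of_eventuallyEq h4
  have h6 : r • (Lx q x).comp (r⁻¹ • ContinuousLinearMap.id ℝ (E 3)) = Lx q x := by
    ext w
    simp [hr.ne']
  rwa [h6] at h5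

lemma gsq_contOn (hq : Q q) : ContinuousOn (gsq q) {x | x ≠ 0} := fun _ hx =>
  (hq.sm.gsq.contAt hx).continuousWithinAt

/-- `det2 (Bq q x)` is continuous where it is defined -/
lemma det_contAt (hq : Q q) {x : E 3} (hx : x ≠ 0) (hlt : gsq q x < 4) :
    ContinuousAt (fun w => det2 (Bq q w)) x := by
  have hcc : ContinuousAt (cc q) x := by
    unfold cc
    exact ((continuousAt_const.sub ((hq.sm.gsq.contAt hx).div_const 4))).sqrt
  have hC := (cc_pos hlt).ne'
  have hco : ∀ i, ContinuousAt (fun w : E 3 => w i) x := fun i => (Sm.coord i).contAt hx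
  have hB : ∀ i j, ContinuousAt (fun w => Bq q w i j) x := by
    intro i j
    unfold Bq Zb pr
    refine ContinuousAt.add (ContinuousAt.add ?_ ?_) ?_
    · exact (((hq.sm.hs i j).contAt hx).add (((hq.sm.pd i).contAt hx).mul (hco j))).add
        ((hco i).mul ((hq.sm.pd j).contAt hx))
    · exact (((continuousAt_const.mul (hcc.pow 2)).sub continuousAt_const).div hcc hC).mul
        (continuousAt_const.sub ((hco i).mul (hco j)))
    · exact (((hq.sm.pd i).contAt hx).mul ((hq.sm.pd j).contAt hx)).div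
        (continuousAt_const.mul hcc) (by positivity)
  unfold det2 tr3 ip3
  simp only [Fin.sum_univ_three]
  have h := hB
  fun_prop (disch := assumption)

lemma Bq_symm (hq : Q q) {x : E 3} (hx : x ≠ 0) (i j : Fin 3) : Bq q x i j = Bq q x j i := by
  unfold Bq Zb pr
  have h1 := hs_symm hq.sm hx i j
  have h2 : kd i j = kd j i := by unfold kd; simp only [eq_comm]
  rw [h1, h2]; ring

lemma minor_nonneg {B : Fin 3 → Fin 3 → ℝ} (hs : ∀ i j, B i j = B j i)
    (hB : ∀ v : Fin 3 → ℝ, 0 ≤ qf B v v) (i j : Fin 3) (hij : i ≠ j) :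
    0 ≤ B i i * B j j - B i j * B i j := by
  have h : ∀ s : ℝ, 0 ≤ B i i * (s * s) + (2 * B i j) * s + B j j := by
    intro s
    have h1 := hB (fun k => if k = i then s else if k = j then 1 else 0)
    have h2 : qf B (fun k => if k = i then s else if k = j then 1 else 0)
        (fun k => if k = i then s else if k = j then 1 else 0) =
        B i i * (s * s) + (2 * B i j) * s + B j j := by
      have := hs
      unfold qf
      fin_cases i <;> fin_cases j <;> simp [Fin.sum_univ_three] at hij ⊢ <;>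
        linarith [hs 0 1, hs 0 2, hs 1 2, congrArg (· * s) (hs 0 1), congrArg (· * s) (hs 0 2),
          congrArg (· * s) (hs 1 2)]
    rw [← h2]; exact h1
  have h3 := discrim_le_zero h
  unfold discrim at h3
  linarith

lemma det2_nonneg {B : Fin 3 → Fin 3 → ℝ} (hs : ∀ i j, B i j = B j i)
    (hB : ∀ v : Fin 3 → ℝ, 0 ≤ qf B v v) : 0 ≤ det2 B := by
  have h1 := minor_nonneg hs hB 0 1 (by decide)
  have h2 := minor_nonneg hs hB 0 2 (by decide)
  have h3 := minor_nonneg hs hB 1 2 (by decide)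
  have e : det2 B = (B 0 0 * B 1 1 - B 0 1 * B 0 1) + (B 0 0 * B 2 2 - B 0 2 * B 0 2) +
      (B 1 1 * B 2 2 - B 1 2 * B 1 2) := by
    unfold det2 tr3 ip3
    simp only [Fin.sum_univ_three]
    rw [hs 1 0, hs 2 0, hs 2 1]; ring
  rw [e]; linarith

lemma That_one {x : E 3} (hx : ‖x‖ = 1) (hlt : gsq q x < 4) (i : Fin 3) :
    That q x i = T q x i := by
  change TH q i x = T q x i
  unfold TH T
  rw [ss_one hx, CC_one hx, hx, cc_sq hlt]; ring

/-- ABP -/
theorem abp {q : E 3 → ℝ} (hq : Q q) (G : E 3 → ℝ) (hG : ContinuousOn G (sphere 0 1))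
    (hG0 : ∀ x, ‖x‖ = 1 → 0 ≤ G x)
    (h : ∀ x, ‖x‖ = 1 → gsq q x < 4 → (∀ v : Fin 3 → ℝ, 0 ≤ qf (Bq q x) v v) →
      det2 (Bq q x) ≤ G x) : 4 * Real.pi ≤ S2 G := by
  set U : Set (E 3) := PB ∩ {z | z ≠ 0 ∧ ss q z < 4} with hU
  have hUo : IsOpen U := by
    refine isOpen_PB.inter ?_
    have h1 : ContinuousOn (ss q) {z | z ≠ 0} := fun z hz =>
      ((sm_ss hq).contAt hz).continuousWithinAt
    have h2 := h1.isOpen_inter_preimage isOpen_ne (isOpen_Iio (a := (4:ℝ)))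
    exact h2
  set Dz : E 3 → ℝ := fun z => det2 (Bq q (‖z‖⁻¹ • z)) with hDz
  set Gz : E 3 → ℝ := fun z => G (‖z‖⁻¹ • z) with hGz
  have hunit : ∀ z ∈ U, ‖‖z‖⁻¹ • z‖ = 1 ∧ gsq q (‖z‖⁻¹ • z) < 4 := by
    intro z hz
    have h1 := norm_unit hz.1.1
    refine ⟨h1, ?_⟩
    rw [← ss_one h1, ss_smul hq hz.2.1 (inv_pos.mpr hz.1.1)]
    exact hz.2.2
  have hDc : ContinuousOn Dz U := by
    intro z hz
    obtain ⟨h1, h2⟩ := hunit z hz
    have h3 := det_contAt hq (ne0 h1) h2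
    have h4 : ContinuousAt (fun w : E 3 => ‖w‖⁻¹ • w) z :=
      unit_contOn.continuousAt ((isOpen_lt continuous_const continuous_norm).mem_nhds hz.1.1)
    exact (ContinuousAt.comp (f := fun w : E 3 => ‖w‖⁻¹ • w) h3 h4).continuousWithinAt
  have hGc : ContinuousOn Gz U := (comp_unit hG).mono fun z hz => hz.1.1
  set K : Set (E 3) := {z | z ∈ U ∧ 0 ≤ Dz z ∧ Dz z ≤ Gz z} with hK
  have hKm : MeasurableSet K := by
    have h1 : MeasurableSet (U ∩ Dz ⁻¹' Iio 0) :=
      (hDc.isOpen_inter_preimage hUo isOpen_Iio).measurableSet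
    have h2 : MeasurableSet (U ∩ (fun z => Gz z - Dz z) ⁻¹' Iio 0) :=
      ((hGc.sub hDc).isOpen_inter_preimage hUo isOpen_Iio).measurableSet
    have h3 : K = (U \ (U ∩ Dz ⁻¹' Iio 0)) \ (U ∩ (fun z => Gz z - Dz z) ⁻¹' Iio 0) := by
      ext z
      simp only [hK, mem_ofPred_eq, Set.mem_sdiff, mem_inter_iff, mem_preimage, mem_Iio, not_and, not_lt,
        sub_nonneg]
      tauto
    rw [h3]
    exact (hUo.measurableSet.diff h1).diff h2
  have hKP : K ⊆ PB := fun z hz => hz.1.1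
  have hfd : ∀ z ∈ K, HasFDerivWithinAt (That q) (Lx q (‖z‖⁻¹ • z)) K z := by
    intro z hz
    obtain ⟨h1, h2⟩ := hunit z hz.1
    have h3 := hasFD_all hq h1 h2 hz.1.1.1
    rw [smul_inv_smul₀ hz.1.1.1.ne'] at h3
    exact h3.hasFDerivWithinAt
  have hdet : ∀ z ∈ K, (Lx q (‖z‖⁻¹ • z)).det = Dz z := by
    intro z hz
    obtain ⟨h1, h2⟩ := hunit z hz.1
    exact det_Lx hq h1 h2
  have himg : PB ⊆ That q '' K := by
    intro w hw
    have hwn := norm_unit hw.1
    obtain ⟨x, hx, hlt, hpsd, hT⟩ := contact hq (‖w‖⁻¹ • w) hwn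
    have hx0 := ne0 hx
    have hzn : ‖‖w‖ • x‖ = ‖w‖ := by rw [norm_smul, norm_norm, hx, mul_one]
    have hzu : ‖‖w‖ • x‖⁻¹ • (‖w‖ • x) = x := by rw [hzn, inv_smul_smul₀ hw.1.ne']
    refine ⟨‖w‖ • x, ⟨⟨?_, smul_ne_zero hw.1.ne' hx0, ?_⟩, ?_, ?_⟩, ?_⟩
    · unfold PB
      simp only [mem_ofPred_eq, hzn]
      exact hw
    · rw [ss_smul hq hx0 hw.1, ss_one hx]; exact hlt
    · simp only [hDz, hzu]
      exact det2_nonneg (Bq_symm hq hx0) hpsd
    · simp only [hDz, hGz, hzu]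
      exact h x hx hlt hpsd
    · rw [That_smul hq hx0 hw.1]
      have : That q x = ‖w‖⁻¹ • w := by
        ext i
        rw [That_one hx hlt, hT i]
      rw [this, smul_inv_smul₀ hw.1.ne']
  have hvol : (volume : Measure (E 3)) PB ≤ ENNReal.ofReal (S2 G / 3) := by
    calc (volume : Measure (E 3)) PB ≤ volume (That q '' K) := measure_mono himg
      _ ≤ ∫⁻ z in K, ENNReal.ofReal |(Lx q (‖z‖⁻¹ • z)).det| :=
          addHaar_image_le_lintegral_abs_det_fderiv volume hKm hfd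
      _ ≤ ∫⁻ z in K, ENNReal.ofReal (Gz z) := by
          refine setLIntegral_mono' hKm fun z hz => ?_
          rw [hdet z hz, abs_of_nonneg hz.2.1]
          exact ENNReal.ofReal_le_ofReal hz.2.2
      _ ≤ ∫⁻ z in PB, ENNReal.ofReal (Gz z) := lintegral_mono_set hKP
      _ = ENNReal.ofReal (∫ z in PB, Gz z) := by
          rw [ofReal_integral_eq_lintegral_ofReal (integrable_cone hG)]
          refine (ae_restrict_iff' isOpen_PB.measurableSet).mpr (Eventually.of_forall fun z hz => ?_)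
          exact hG0 _ (norm_unit hz.1)
      _ = ENNReal.ofReal (S2 G / 3) := by rw [integral_cone hG]
  have hreal : (volume : Measure (E 3)) PB = ENNReal.ofReal (4 * Real.pi / 3) := by
    have h1 := vol_PB
    rw [S2_const] at h1
    rw [← ENNReal.ofReal_toReal vol_PB_ne]
    congr 1
    change (volume : Measure (E 3)).real PB = _
    rw [h1]; ring
  rw [hreal] at hvol
  have h2 := (ENNReal.ofReal_le_ofReal_iff' ).mp hvol
  rcases h2 with h2 | h2
  · linarith
  · have := Real.pi_pos; linarith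

end Vale.Agent.P366.H707

namespace Vale.Agent.P366.H353

/-- contact points -/
theorem contact {q : E 3 → ℝ} (hq : Q q) (y : E 3) (hy : ‖y‖ = 1) :
    ∃ x : E 3, ‖x‖ = 1 ∧ gsq q x < 4 ∧ (∀ v : Fin 3 → ℝ, 0 ≤ qf (Bq q x) v v) ∧
      ∀ i, T q x i = y i := H707.contact hq y hy

/-- ABP -/
theorem abp {q : E 3 → ℝ} (hq : Q q) (G : E 3 → ℝ) (hG : ContinuousOn G (sphere 0 1))
    (hG0 : ∀ x, ‖x‖ = 1 → 0 ≤ G x)
    (h : ∀ x, ‖x‖ = 1 → gsq q x < 4 → (∀ v : Fin 3 → ℝ, 0 ≤ qf (Bq q x) v v) →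
      det2 (Bq q x) ≤ G x) : 4 * Real.pi ≤ S2 G := H707.abp hq G hG hG0 h

end Vale.Agent.P366.H353
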