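import Vale.Agent.P366.H353.Defs
import Mathlib.Analysis.Calculus.FDeriv.Symmetric

/-! Elementary facts about homogeneous functions of degree zero and their derivatives. -/

open MeasureTheory Metric Filter Topology Set
open scoped ContDiff

noncomputable section
namespace Vale.Agent.P366.H707

open Vale.Agent.P366 (sphI sphM pd E)
open Vale.Agent.P366.H353

lemma sm_pd {f : E 3 → ℝ} (hf : Sm f) (i : Fin 3) : Sm (pd i f) := by
  intro x hx
  have h1 : ContDiffAt ℝ ∞ (fderiv ℝ f) x :=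
    (hf x hx).fderiv_right (m := ∞) (by simp)
  exact h1.clm_apply contDiffAt_const

lemma diffAt {f : E 3 → ℝ} (hf : Sm f) {x : E 3} (hx : x ≠ 0) : DifferentiableAt ℝ f x :=
  (hf x hx).differentiableAt (by simp)

lemma contAt {f : E 3 → ℝ} (hf : Sm f) {x : E 3} (hx : x ≠ 0) : ContinuousAt f x :=
  (hf x hx).continuousAt

lemma hasFD {f : E 3 → ℝ} (hf : Sm f) {x : E 3} (hx : x ≠ 0) :
    HasFDerivAt f (fderiv ℝ f x) x := (diffAt hf hx).hasFDerivAt

lemma hs_symm {f : E 3 → ℝ} (hf : Sm f) {x : E 3} (hx : x ≠ 0) (i j : Fin 3) :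
    hs f i j x = hs f j i x := by
  have hsym : IsSymmSndFDerivAt ℝ f x := (hf x hx).isSymmSndFDerivAt (by simp; norm_cast)
  have hd : DifferentiableAt ℝ (fderiv ℝ f) x :=
    ((hf x hx).fderiv_right (m := ∞) (by simp)).differentiableAt (by simp)
  have key : ∀ i j : Fin 3, hs f i j x =
      fderiv ℝ (fderiv ℝ f) x (EuclideanSpace.single i 1) (EuclideanSpace.single j 1) := by
    intro i j
    have : HasFDerivAt (fun z => fderiv ℝ f z (EuclideanSpace.single j 1))
        ((ContinuousLinearMap.apply ℝ ℝ (EuclideanSpace.single j (1:ℝ) : E 3)).comp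
          (fderiv ℝ (fderiv ℝ f) x)) x :=
      (ContinuousLinearMap.apply ℝ ℝ (EuclideanSpace.single j (1:ℝ) : E 3)).hasFDerivAt.comp x
        hd.hasFDerivAt
    unfold hs pd
    rw [this.fderiv]
    simp
  rw [key, key]
  exact hsym _ _

/-- derivative along a curve -/
lemma hasDeriv_curve {f : E 3 → ℝ} (hf : Sm f) {c : ℝ → E 3} {c' : E 3} {t : ℝ}
    (hc : HasDerivAt c c' t) (h0 : c t ≠ 0) :
    HasDerivAt (fun s => f (c s)) (∑ i, c' i * pd i f (c t)) t := by
  have := (hasFD hf h0).comp_hasDerivAt t hc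
  rwa [fderiv_eq_sum_pd] at this

/-- homogeneity of the first derivatives -/
lemma hom_pd {k : ℤ} {f : E 3 → ℝ} (hf : Sm f) (hk : Hom k f) (i : Fin 3) :
    Hom (k - 1) (pd i f) := by
  intro x hx r hr
  have hr0 : r ≠ 0 := hr.ne'
  have hrx : r • x ≠ 0 := smul_ne_zero hr0 hx
  have h1 : HasFDerivAt (fun z : E 3 => f (r • z))
      ((fderiv ℝ f (r • x)).comp (r • ContinuousLinearMap.id ℝ (E 3))) x := by
    have h2 : HasFDerivAt (fun z : E 3 => r • z) (r • ContinuousLinearMap.id ℝ (E 3)) x :=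
      (hasFDerivAt_id x).const_smul r
    exact (hasFD hf hrx).comp x h2
  have h3 : HasFDerivAt (fun z : E 3 => r ^ k * f z) (r ^ k • fderiv ℝ f x) x :=
    (hasFD hf hx).const_mul (r ^ k)
  have h4 : (fun z : E 3 => f (r • z)) =ᶠ[𝓝 x] fun z => r ^ k * f z := by
    filter_upwards [isOpen_ne.mem_nhds hx] with z hz
    exact hk z hz r hr
  have h5 := (h1.congr_of_eventuallyEq h4.symm).unique h3
  have h6 := congrArg (fun L : E 3 →L[ℝ] ℝ => L (EuclideanSpace.single i 1)) h5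
  simp only [ContinuousLinearMap.comp_apply, _root_.smul_apply,
    ContinuousLinearMap.id_apply, map_smul, smul_eq_mul] at h6
  change pd i f (r • x) = r ^ (k - 1) * pd i f x
  have h7 : r * pd i f (r • x) = r ^ k * pd i f x := h6
  rw [zpow_sub_one₀ hr0]
  field_simp
  linarith

/-- Euler's identity -/
lemma euler {k : ℤ} {f : E 3 → ℝ} (hf : Sm f) (hk : Hom k f) {x : E 3} (hx : x ≠ 0) :
    ∑ i, x i * pd i f x = k * f x := by
  have hc : HasDerivAt (fun s : ℝ => s • x) x 1 := by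
    simpa using (hasDerivAt_id (1:ℝ)).smul_const x
  have h1 := hasDeriv_curve hf hc (by simpa using hx)
  have h2 : (fun s : ℝ => f (s • x)) =ᶠ[𝓝 1] fun s => s ^ k * f x := by
    filter_upwards [lt_mem_nhds (show (0:ℝ) < 1 by norm_num)] with s hs
    exact hk x hx s hs
  have h3 : HasDerivAt (fun s : ℝ => s ^ k * f x) ((k * (1:ℝ) ^ (k - 1)) * f x) 1 :=
    (hasDerivAt_zpow k 1 (Or.inl one_ne_zero)).mul_const _
  have h4 := (h1.congr_of_eventuallyEq h2.symm).unique h3
  simpa using h4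

variable {q : E 3 → ℝ}

lemma ne0 {x : E 3} (hx : ‖x‖ = 1) : x ≠ 0 := by
  rintro rfl; simp at hx

lemma sum_sq {x : E 3} (hx : ‖x‖ = 1) : ∑ i, x i ^ 2 = 1 := by
  have h := EuclideanSpace.real_norm_sq_eq x
  rw [hx] at h; linarith

lemma xg {q : E 3 → ℝ} (hq : Q q) {x : E 3} (hx : x ≠ 0) : ∑ i, x i * pd i q x = 0 := by
  rw [euler hq.sm hq.hom hx]; simp

lemma Nx {q : E 3 → ℝ} (hq : Q q) {x : E 3} (hx : x ≠ 0) (j : Fin 3) :
    ∑ i, x i * hs q i j x = - pd j q x := by
  have h := euler (sm_pd hq.sm j) (hom_pd hq.sm hq.hom j) hx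
  simpa [hs] using h

lemma Nx' {q : E 3 → ℝ} (hq : Q q) {x : E 3} (hx : x ≠ 0) (i : Fin 3) :
    ∑ j, hs q i j x * x j = - pd i q x := by
  rw [← Nx hq hx i]
  refine Finset.sum_congr rfl fun j _ => ?_
  rw [hs_symm hq.sm hx i j]; ring

end Vale.Agent.P366.H707
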