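import Vale.Agent.P366.H353.Basic
import Mathlib.MeasureTheory.Function.Jacobian

/-! Integrals over the unit ball of homogeneous functions of degree zero. -/

open MeasureTheory Metric Filter Topology Set
open scoped ContDiff

noncomputable section
namespace Vale.Agent.P366.H707

open Vale.Agent.P366 (sphI sphM pd E polar)
open Vale.Agent.P366.H353

/-- The punctured open unit ball. -/
def PB : Set (E 3) := {z | 0 < ‖z‖ ∧ ‖z‖ < 1}

lemma isOpen_PB : IsOpen PB :=
  (isOpen_lt continuous_const continuous_norm).inter (isOpen_lt continuous_norm continuous_const)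

lemma norm_unit {z : E 3} (hz : 0 < ‖z‖) : ‖‖z‖⁻¹ • z‖ = 1 := by
  rw [norm_smul, norm_inv, norm_norm, inv_mul_cancel₀ hz.ne']

lemma unit_contOn : ContinuousOn (fun z : E 3 => ‖z‖⁻¹ • z) {z | 0 < ‖z‖} := by
  refine ContinuousOn.smul (ContinuousOn.inv₀ continuous_norm.continuousOn ?_) continuousOn_id
  intro z hz
  exact (show 0 < ‖z‖ from hz).ne'

lemma comp_unit {G : E 3 → ℝ} (hG : ContinuousOn G (sphere 0 1)) :
    ContinuousOn (fun z : E 3 => G (‖z‖⁻¹ • z)) {z | 0 < ‖z‖} :=
  hG.comp unit_contOn fun z hz => by simpa using norm_unit hz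

lemma PB_sub_ball : PB ⊆ ball (0 : E 3) 1 := fun z hz => by simpa using hz.2

lemma vol_PB_ne : (volume : Measure (E 3)) PB ≠ ⊤ :=
  ((measure_mono PB_sub_ball).trans_lt measure_ball_lt_top).ne

lemma integrable_cone {G : E 3 → ℝ} (hG : ContinuousOn G (sphere 0 1)) :
    IntegrableOn (fun z : E 3 => G (‖z‖⁻¹ • z)) PB := by
  obtain ⟨M, hM⟩ := (isCompact_sphere (0 : E 3) 1).exists_bound_of_continuousOn hG
  have : IsFiniteMeasure ((volume : Measure (E 3)).restrict PB) :=
    ⟨by rw [Measure.restrict_apply_univ]; exact vol_PB_ne.lt_top⟩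
  refine Integrable.of_bound
    (((comp_unit hG).mono fun z hz => hz.1).aestronglyMeasurable isOpen_PB.measurableSet) M ?_
  refine (ae_restrict_iff' isOpen_PB.measurableSet).mpr (Eventually.of_forall fun z hz => ?_)
  exact hM _ (by simpa using norm_unit hz.1)

lemma integral_cone {G : E 3 → ℝ} (hG : ContinuousOn G (sphere 0 1)) :
    ∫ z in PB, G (‖z‖⁻¹ • z) = S2 G / 3 := by
  rw [← integral_indicator isOpen_PB.measurableSet]
  rw [polar _ ((integrable_indicator_iff isOpen_PB.measurableSet).mpr (integrable_cone hG))]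
  have h1 : ∀ r ∈ Ioi (0:ℝ), r ^ (3 - 1) * sphI (PB.indicator fun z : E 3 => G (‖z‖⁻¹ • z)) r =
      (Iio (1:ℝ)).indicator (fun r => r ^ 2 * S2 G) r := by
    intro r hr
    have hr : 0 < r := hr
    unfold sphI
    by_cases h : r < 1
    · rw [indicator_of_mem (show r ∈ Iio (1:ℝ) from h)]
      congr 1
      refine integral_congr_ae (Eventually.of_forall fun θ => ?_)
      have hn : ‖r • (θ : E 3)‖ = r := by
        rw [norm_smul, Real.norm_eq_abs, abs_of_pos hr, norm_eq_of_mem_sphere, mul_one]
      have hm : r • (θ : E 3) ∈ PB := by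
        unfold PB; simp only [mem_ofPred_eq, hn]; exact ⟨hr, h⟩
      simp only [indicator_of_mem hm, hn]
      rw [inv_smul_smul₀ hr.ne']
    · rw [indicator_of_notMem (show r ∉ Iio (1:ℝ) from h)]
      have : (fun θ : sphere (0 : E 3) 1 => PB.indicator (fun z : E 3 => G (‖z‖⁻¹ • z))
          (r • (θ : E 3))) = fun _ => 0 := by
        funext θ
        have hn : ‖r • (θ : E 3)‖ = r := by
          rw [norm_smul, Real.norm_eq_abs, abs_of_pos hr, norm_eq_of_mem_sphere, mul_one]
        refine indicator_of_notMem ?_ _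
        unfold PB; simp only [mem_ofPred_eq, hn]
        exact fun hh => h hh.2
      rw [this]; simp
  rw [setIntegral_congr_fun measurableSet_Ioi h1, setIntegral_indicator measurableSet_Iio]
  rw [integral_mul_const, show Ioi (0:ℝ) ∩ Iio 1 = Ioo 0 1 from rfl,
    ← integral_Ioc_eq_integral_Ioo, ← intervalIntegral.integral_of_le zero_le_one, integral_pow]
  norm_num
  ring

lemma vol_PB : (volume : Measure (E 3)).real PB = S2 (fun _ => 1) / 3 := by
  have := integral_cone (G := fun _ => 1) continuousOn_const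
  rw [← this]
  simp

end Vale.Agent.P366.H707
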