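import Vale.Agent.P366.H707.Cone

/-! Polar coordinates for the lower Lebesgue integral. -/

open MeasureTheory Metric Filter Topology Set
open scoped ContDiff ENNReal

noncomputable section
namespace Vale.Agent.P366.H707

open Vale.Agent.P366 (sphI sphM pd E polar)

lemma lint_polar {n : ℕ} [Nontrivial (E n)] (h : E n → ℝ≥0∞) (hm : Measurable h) :
    ∫⁻ x, h x = ∫⁻ θ : sphere (0 : E n) 1, (∫⁻ r in Ioi (0 : ℝ),
      ENNReal.ofReal (r ^ (n - 1)) * h (r • (θ : E n))) ∂(sphM n) := by
  have hmp := (volume : Measure (E n)).measurePreserving_homeomorphUnitSphereProd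
  have hdim : Module.finrank ℝ (E n) = n := by simp only [finrank_euclideanSpace, Fintype.card_fin]
  rw [hdim] at hmp
  have hkey : ∀ x : ({(0)}ᶜ : Set (E n)), ‖(x : E n)‖ • ‖(x : E n)‖⁻¹ • (x : E n) = x := by
    intro x
    have hx : ‖(x : E n)‖ ≠ 0 := norm_ne_zero_iff.mpr (fun h0 => x.2 (by simp [h0]))
    rw [smul_inv_smul₀ hx]
  have h1 : ∫⁻ x, h x = ∫⁻ x : ({(0)}ᶜ : Set (E n)), h x.1 ∂((volume : Measure (E n)).comap (↑)) := by
    rw [lintegral_subtype_comap (measurableSet_singleton _).compl fun x ↦ h x,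
      restrict_compl_singleton]
  have hmeas2 : Measurable fun p : sphere (0 : E n) 1 × Ioi (0 : ℝ) => h (p.2.1 • (p.1 : E n)) := by
    refine hm.comp ?_
    exact (measurable_subtype_coe.comp measurable_snd).smul
      (measurable_subtype_coe.comp measurable_fst)
  have h2 : ∫⁻ x : ({(0)}ᶜ : Set (E n)), h x.1 ∂((volume : Measure (E n)).comap (↑))
      = ∫⁻ p : sphere (0 : E n) 1 × Ioi (0 : ℝ), h (p.2.1 • (p.1 : E n))
        ∂((sphM n).prod (Measure.volumeIoiPow (n - 1))) := by
    rw [← hmp.lintegral_comp hmeas2]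
    refine lintegral_congr fun x => ?_
    simp only [homeomorphUnitSphereProd_apply_snd_coe, homeomorphUnitSphereProd_apply_fst_coe, hkey]
  rw [h1, h2, lintegral_prod _ hmeas2.aemeasurable]
  refine lintegral_congr fun θ => ?_
  have hm3 : Measurable fun r : Ioi (0:ℝ) => h ((r:ℝ) • (θ : E n)) :=
    hm.comp (measurable_subtype_coe.smul_const _)
  simp only [Measure.volumeIoiPow]
  rw [lintegral_withDensity_eq_lintegral_mul _ (by fun_prop) hm3]
  simp only [Pi.mul_apply]
  rw [lintegral_subtype_comap measurableSet_Ioi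
    (fun r : ℝ => ENNReal.ofReal (r ^ (n - 1)) * h (r • (θ : E n)))]

end Vale.Agent.P366.H707
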