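import Vale.Agent.P366.H707.Lint
import Vale.Agent.P366.H707.C3

/-! The map `x ↦ ∇ H(x) + x` whose radial lines are the null generators. -/

open MeasureTheory Metric Filter Topology Set
open scoped ContDiff ENNReal

noncomputable section
namespace Vale.Agent.P366.H707

open Vale.Agent.P366 (sphI sphM pd E polar)
open Vale.Agent.P366.H353

/-- determinant of the derivative in components -/
lemma det_fderiv {f : E 3 → E 3} {F : Fin 3 → E 3 → ℝ} (hf : ∀ x i, f x i = F i x) {x : E 3}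
    (hd : DifferentiableAt ℝ f x) :
    (fderiv ℝ f x).det = Matrix.det (Matrix.of fun i j => pd j (F i) x) := by
  have hL : ∀ i j, (fderiv ℝ f x (EuclideanSpace.single j 1)) i = pd j (F i) x := by
    intro i j
    have h0 : F i = fun y => f y i := funext fun y => (hf y i).symm
    have h2 : HasFDerivAt (F i)
        ((EuclideanSpace.proj (𝕜 := ℝ) i : E 3 →L[ℝ] ℝ).comp (fderiv ℝ f x)) x := by
      rw [h0]
      exact (EuclideanSpace.proj (𝕜 := ℝ) i : E 3 →L[ℝ] ℝ).hasFDerivAt.comp x hd.hasFDerivAt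
    unfold pd
    rw [h2.fderiv]
    rfl
  have h3 : (fderiv ℝ f x).det = LinearMap.det ((fderiv ℝ f x : E 3 →L[ℝ] E 3) : E 3 →ₗ[ℝ] E 3) :=
    rfl
  rw [h3, ← LinearMap.det_toMatrix (EuclideanSpace.basisFun (Fin 3) ℝ).toBasis]
  congr 1
  ext i j
  rw [LinearMap.toMatrix_apply]
  simp [hL]

/-- The map `x ↦ ∇ H(x) + x`. -/
def Psi (H : E 3 → ℝ) (x : E 3) : E 3 := WithLp.toLp 2 fun i => pd i H x + x i

/-- The determinant of `Hess H + s I` on the tangent plane at the unit vector `x`. -/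
def dW (H : E 3 → ℝ) (s : ℝ) (x : E 3) : ℝ := det2 fun i j => hs H i j x + s * pr x i j

variable {H : E 3 → ℝ}

lemma Psi_diff (hH : Sm H) {x : E 3} (hx : x ≠ 0) : DifferentiableAt ℝ (Psi H) x := by
  rw [differentiableAt_euclidean]
  intro i
  exact ((hH.pd i).add (Sm.coord i)).diff hx

lemma Psi_smooth (hH : Sm H) {x : E 3} (hx : x ≠ 0) : ContDiffAt ℝ ∞ (Psi H) x := by
  rw [contDiffAt_euclidean]
  intro i
  exact ((hH.pd i).add (Sm.coord i)) x hx

lemma Psi_smul (hH : Sm H) (h1 : Hom 1 H) {x : E 3} (hx : x ≠ 0) {r : ℝ} (hr : 0 < r) (i : Fin 3) :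
    Psi H (r • x) i = pd i H x + r * x i := by
  have h := Hom.pd hH h1 i x hx r hr
  change pd i H (r • x) + (r • x) i = _
  rw [h]; simp

lemma hs_smul (hH : Sm H) (h1 : Hom 1 H) {x : E 3} (hx : x ≠ 0) {r : ℝ} (hr : 0 < r)
    (i j : Fin 3) : hs H i j (r • x) = hs H i j x / r := by
  have h := Hom.hs hH h1 i j x hx r hr
  rw [h, show (1 - 2 : ℤ) = -1 by norm_num, zpow_neg_one]
  field_simp

lemma hsx (hH : Sm H) (h1 : Hom 1 H) {x : E 3} (hx : x ≠ 0) (i : Fin 3) :
    ∑ j, hs H i j x * x j = 0 := by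
  have h := Hom.euler (hH.pd i) (Hom.pd hH h1 i) hx
  rw [show ((1 - 1 : ℤ) : ℝ) * pd i H x = 0 by norm_num] at h
  rw [← h]
  refine Finset.sum_congr rfl fun j _ => ?_
  rw [hs_symm hH hx i j]
  unfold hs; ring

lemma pr_x {x : E 3} (hx : ‖x‖ = 1) (i : Fin 3) : ∑ j, pr x i j * x j = 0 := by
  have h := sum_sq hx
  unfold pr kd
  simp only [Fin.sum_univ_three] at h ⊢
  fin_cases i <;> simp <;> linear_combination (-1) * x _ * h

lemma det_DPsi (hH : Sm H) (h1 : Hom 1 H) {x : E 3} (hx : ‖x‖ = 1) {r : ℝ} (hr : 0 < r) :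
    (fderiv ℝ (Psi H) (r • x)).det = dW H r x / r ^ 2 := by
  have hx0 := ne0 hx
  have hrx : r • x ≠ 0 := smul_ne_zero hr.ne' hx0
  rw [det_fderiv (F := fun i y => pd i H y + y i) (fun _ _ => rfl) (Psi_diff hH hrx)]
  have e1 : ∀ i j, pd j (fun y => pd i H y + y i) (r • x) =
      x i * x j + (hs H i j x / r + pr x i j) := by
    intro i j
    rw [pd_add' (hH.pd i) (Sm.coord i) hrx, pd_coord']
    have h2 : pd j (pd i H) (r • x) = hs H i j x / r := by
      change hs H j i (r • x) = _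
      rw [hs_smul hH h1 hx0 hr, hs_symm hH hx0]
    rw [h2]
    unfold pr kd
    by_cases hij : i = j
    · subst hij; simp only [↓reduceIte]; ring
    · rw [if_neg (Ne.symm hij), if_neg hij]; ring
  have e2 : (Matrix.of fun i j => pd j (fun y => pd i H y + y i) (r • x)) =
      Matrix.of fun i j => (fun i => x i) i * (fun i => x i) j +
        (fun i j => hs H i j x / r + pr x i j) i j := by
    ext i j
    simp only [Matrix.of_apply]
    exact e1 i j
  rw [e2, det_add_unit (sum_sq hx)]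
  · unfold dW det2 tr3 ip3
    simp only [Fin.sum_univ_three]
    field_simp
  · intro i j
    rw [hs_symm hH hx0 i j]
    unfold pr kd
    simp only [eq_comm, mul_comm]
  · intro i
    have h3 := hsx hH h1 hx0 i
    have h4 := pr_x hx i
    simp only [Fin.sum_univ_three] at h3 h4 ⊢
    linear_combination h3 / r + h4

lemma dW_eq {x : E 3} (hH : Sm H) (h1 : Hom 1 H) (hx : ‖x‖ = 1) (s : ℝ) :
    dW H s x = dW H 0 x + s * tr3 (fun i j => hs H i j x) + s ^ 2 := by
  have h3 := fun i => hsx hH h1 (ne0 hx) i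
  have h5 := sum_sq hx
  have k0 := h3 0
  have k1 := h3 1
  have k2 := h3 2
  unfold dW det2 tr3 ip3 pr kd
  simp only [Fin.sum_univ_three, Fin.isValue, ↓reduceIte, Fin.reduceEq, one_ne_zero, zero_ne_one]
    at k0 k1 k2 h5 ⊢
  linear_combination s * (x 0 * k0 + x 1 * k1 + x 2 * k2) +
    (- s * (hs H 0 0 x + hs H 1 1 x + hs H 2 2 x) - 2 * s ^ 2) * h5

end Vale.Agent.P366.H707
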