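import Vale.Agent.P366.H707.AdjCS

/-! The area of the boundary of an exterior domain swept out by null generators. -/

open MeasureTheory Metric Filter Topology Set
open scoped ContDiff ENNReal

noncomputable section
namespace Vale.Agent.P366.H707

open Vale.Agent.P366 (sphI sphM pd E polar)
open Vale.Agent.P366.H353 (Sm Hom S2 det2 hs pr tr3)
open Vale.Agent.P366.T1 (cut_ibp cut_smooth T_deriv_nonneg T_deriv_zero T_deriv_one T_diff
  pd_fderiv pd_congr')
open Vale.Agent.P366.Stmt (mat Exterior Smooth len)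

/-- The points `x` with `U x ≤ ‖x‖`: parameters of the exterior domain. -/
def Par (U : E 3 → ℝ) : Set (E 3) := {x | x ≠ 0 ∧ U x ≤ ‖x‖}

variable {H U : E 3 → ℝ}

lemma Par_meas (hU : Sm U) : MeasurableSet (Par U) := by
  have h1 : ContinuousOn (fun x : E 3 => ‖x‖ - U x) {x | x ≠ 0} := fun x hx =>
    (continuous_norm.continuousAt.sub (hU.contAt hx)).continuousWithinAt
  have h2 := (h1.isOpen_inter_preimage isOpen_ne (isOpen_Iio (a := (0:ℝ)))).measurableSet
  have h3 : Par U = {x | x ≠ 0} \ ({x : E 3 | x ≠ 0} ∩ (fun x : E 3 => ‖x‖ - U x) ⁻¹' Iio 0) := by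
    ext x
    simp only [Par, mem_ofPred_eq, Set.mem_sdiff, mem_inter_iff, mem_preimage, mem_Iio, not_and,
      not_lt, sub_nonneg]
    tauto
  rw [h3]
  exact isOpen_ne.measurableSet.diff h2

/-- the level `‖x‖ = U x` is a null set -/
lemma level_zero (hU : Sm U) (h0 : Hom 0 U) :
    (volume : Measure (E 3)) {x | x ≠ 0 ∧ U x = ‖x‖} = 0 := by
  have hm : MeasurableSet {x : E 3 | x ≠ 0 ∧ U x = ‖x‖} := by
    have h1 : ContinuousOn (fun x : E 3 => ‖x‖ - U x) {x | x ≠ 0} := fun x hx =>
      (continuous_norm.continuousAt.sub (hU.contAt hx)).continuousWithinAt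
    have h2 := (h1.isOpen_inter_preimage isOpen_ne (isOpen_compl_singleton (x := (0:ℝ)))).measurableSet
    have h3 : {x : E 3 | x ≠ 0 ∧ U x = ‖x‖} =
        {x | x ≠ 0} \ ({x : E 3 | x ≠ 0} ∩ (fun x : E 3 => ‖x‖ - U x) ⁻¹' {0}ᶜ) := by
      ext x
      simp only [mem_ofPred_eq, Set.mem_sdiff, mem_inter_iff, mem_preimage, mem_compl_iff,
        mem_singleton_iff, sub_eq_zero]
      constructor
      · rintro ⟨a, b⟩
        exact ⟨a, fun h => h.2 b.symm⟩
      · rintro ⟨a, b⟩
        refine ⟨a, ?_⟩
        by_contra hc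
        exact b ⟨a, fun h => hc h.symm⟩
    rw [h3]
    exact isOpen_ne.measurableSet.diff h2
  have h4 := lint_polar ({x : E 3 | x ≠ 0 ∧ U x = ‖x‖}.indicator fun _ => (1:ℝ≥0∞))
    (measurable_const.indicator hm)
  rw [lintegral_indicator hm, setLIntegral_one] at h4
  rw [h4]
  refine lintegral_eq_zero_of_ae_eq_zero (Eventually.of_forall fun θ => ?_)
  simp only [Pi.zero_apply]
  refine lintegral_eq_zero_of_ae_eq_zero ?_
  have h5 : ∀ᵐ r : ℝ ∂(volume.restrict (Ioi (0:ℝ))), r ≠ U (θ : E 3) := by
    refine ae_restrict_of_ae ?_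
    have : (volume : Measure ℝ) {U (θ : E 3)} = 0 := by simp
    rw [ae_iff]
    simp
  filter_upwards [h5, ae_restrict_mem measurableSet_Ioi] with r hr hr0
  have hr0 : 0 < r := hr0
  have hθ : ‖(θ : E 3)‖ = 1 := norm_eq_of_mem_sphere θ
  rw [indicator_of_notMem, mul_zero]; rfl
  rintro ⟨-, h6⟩
  rw [h0 _ (ne0 hθ) r hr0, norm_smul, hθ, Real.norm_eq_abs, abs_of_pos hr0] at h6
  simp only [zpow_zero, one_mul, mul_one] at h6
  exact hr h6.symm

/-- `F` along the generator `θ`. -/
lemma deriv_gen (hH : Sm H) (h1 : Hom 1 H) {F : E 3 → ℝ} (hF : Smooth F) {θ : E 3}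
    (hθ : ‖θ‖ = 1) {r : ℝ} (hr : 0 < r) :
    HasDerivAt (fun r : ℝ => F (Psi H (r • θ))) (∑ i, Stmt.pd i F (Psi H (r • θ)) * θ i) r := by
  have hθ0 := ne0 hθ
  have hP : HasDerivAt (fun r : ℝ => Psi H (r • θ)) θ r := by
    have e : (fun r : ℝ => Psi H (r • θ)) =ᶠ[𝓝 r] fun r => (WithLp.toLp 2 fun i => pd i H θ) + r • θ := by
      filter_upwards [lt_mem_nhds hr] with s hs
      ext i
      rw [Psi_smul hH h1 hθ0 hs]
      simp
    have h2 : HasDerivAt (fun r : ℝ => (WithLp.toLp 2 fun i => pd i H θ : E 3) + r • θ) θ r := by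
      simpa using ((hasDerivAt_id r).smul_const θ).const_add (WithLp.toLp 2 fun i => pd i H θ : E 3)
    exact h2.congr_of_eventuallyEq e
  have hd : DifferentiableAt ℝ F (Psi H (r • θ)) := (hF.differentiable (by simp)) _
  have h3 := hd.hasFDerivAt.comp_hasDerivAt r hP
  rw [fderiv_eq_sum_pd] at h3
  refine h3.congr_deriv ?_
  refine Finset.sum_congr rfl fun i _ => ?_
  rw [pd_fderiv hd]
  unfold pd
  ring

lemma dW_contOn (hH : Sm H) :
    ContinuousOn (fun x : E 3 => dW H ‖x‖ (‖x‖⁻¹ • x)) {x | x ≠ 0} := by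
  have hu : ContinuousOn (fun x : E 3 => ‖x‖⁻¹ • x) {x | x ≠ 0} :=
    unit_contOn.mono fun x hx => by simpa using hx
  have hm : ∀ x : E 3, x ∈ {x : E 3 | x ≠ 0} → ‖x‖⁻¹ • x ∈ sphere (0 : E 3) 1 := fun x hx => by
    simpa using norm_unit (norm_pos_iff.mpr hx)
  have hn : ContinuousOn (fun x : E 3 => ‖x‖) {x | x ≠ 0} := continuous_norm.continuousOn
  have hh : ∀ i j, ContinuousOn (fun x : E 3 => hs H i j (‖x‖⁻¹ • x)) {x | x ≠ 0} := fun i j =>
    (hH.hs i j).contOn.comp hu hm
  have hp : ∀ i j, ContinuousOn (fun x : E 3 => pr (‖x‖⁻¹ • x) i j) {x | x ≠ 0} := by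
    intro i j
    unfold H353.pr
    have hc : ∀ k : Fin 3, ContinuousOn (fun x : E 3 => (‖x‖⁻¹ • x) k) {x | x ≠ 0} := fun k =>
      (EuclideanSpace.proj (𝕜 := ℝ) k : E 3 →L[ℝ] ℝ).continuous.comp_continuousOn hu
    exact continuousOn_const.sub ((hc i).mul (hc j))
  have hE : ∀ i j, ContinuousOn (fun x : E 3 => hs H i j (‖x‖⁻¹ • x) +
      ‖x‖ * pr (‖x‖⁻¹ • x) i j) {x | x ≠ 0} := fun i j => (hh i j).add (hn.mul (hp i j))
  unfold dW H353.det2 H353.tr3 H353.ip3
  simp only [Fin.sum_univ_three]
  fun_prop

lemma dU_cont (hH : Sm H) (hU : Sm U) :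
    ContinuousOn (fun x : E 3 => dW H (U x) x) (sphere 0 1) := by
  have hh : ∀ i j, ContinuousOn (fun x : E 3 => hs H i j x) (sphere 0 1) := fun i j =>
    (hH.hs i j).contOn
  have hu := hU.contOn
  have hp : ∀ i j, ContinuousOn (fun x : E 3 => pr x i j) (sphere 0 1) := by
    intro i j
    unfold H353.pr
    fun_prop
  have hE : ∀ i j, ContinuousOn (fun x : E 3 => hs H i j x + U x * pr x i j) (sphere 0 1) :=
    fun i j => (hh i j).add (hu.mul (hp i j))
  unfold dW H353.det2 H353.tr3 H353.ip3
  simp only [Fin.sum_univ_three]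
  fun_prop

/-- the integral along one generator of the derivative of the cutoff -/
lemma gen_int (hH : Sm H) (h1 : Hom 1 H) {F : E 3 → ℝ} (hF : Smooth F) {θ : E 3}
    (hθ : ‖θ‖ = 1) {u : ℝ} (hu : 0 < u) {k R2 : ℝ}
    (hmono : ∀ r, u ≤ r → r ≤ R2 → 0 ≤ deriv T1.T (k * F (Psi H (r • θ))) *
      (k * ∑ i, Stmt.pd i F (Psi H (r • θ)) * θ i)) :
    ∫⁻ r in Icc u R2, ENNReal.ofReal (deriv T1.T (k * F (Psi H (r • θ))) *
      (k * ∑ i, Stmt.pd i F (Psi H (r • θ)) * θ i)) ≤ 1 := by
  set g' : ℝ → ℝ := fun r => deriv T1.T (k * F (Psi H (r • θ))) *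
      (k * ∑ i, Stmt.pd i F (Psi H (r • θ)) * θ i) with hg'
  set g : ℝ → ℝ := fun r => T1.T (k * F (Psi H (r • θ))) with hg
  rcases lt_or_ge R2 u with h | h
  · rw [Icc_eq_empty (not_le.mpr h)]; simp
  have hd : ∀ r ∈ Icc u R2, HasDerivAt g (g' r) r := by
    intro r hr
    have hr0 : 0 < r := lt_of_lt_of_le hu hr.1
    exact (T_diff _).hasDerivAt.comp r ((deriv_gen hH h1 hF hθ hr0).const_mul k)
  have hpos : ∀ r ∈ Icc u R2, 0 ≤ g' r := fun r hr => hmono r hr.1 hr.2
  have hcont : ContinuousOn g (Icc u R2) := fun r hr => (hd r hr).continuousAt.continuousWithinAt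
  have hint : IntegrableOn g' (Ioc u R2) :=
    intervalIntegral.integrableOn_deriv_of_nonneg hcont
      (fun r hr => hd r (Ioo_subset_Icc_self hr)) (fun r hr => hpos r (Ioo_subset_Icc_self hr))
  have hval : ∫ r in Ioc u R2, g' r = g R2 - g u := by
    rw [← intervalIntegral.integral_of_le h]
    refine intervalIntegral.integral_eq_sub_of_hasDerivAt (fun r hr => hd r ?_) ?_
    · rwa [uIcc_of_le h] at hr
    · rwa [intervalIntegrable_iff_integrableOn_Ioc_of_le h]
  rw [setLIntegral_congr Ioc_ae_eq_Icc.symm, ← ofReal_integral_eq_lintegral_ofReal hint]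
  · rw [hval]
    refine (ENNReal.ofReal_le_ofReal (?_ : _ ≤ (1:ℝ))).trans (by simp)
    have h2 := Real.smoothTransition.nonneg (k * F (Psi H (u • θ)))
    have h3 := Real.smoothTransition.le_one (k * F (Psi H (R2 • θ)))
    simp only [hg]
    change Real.smoothTransition _ - Real.smoothTransition _ ≤ 1
    linarith
  · refine (ae_restrict_iff' measurableSet_Ioc).mpr (Eventually.of_forall fun r hr => ?_)
    exact hpos r (Ioc_subset_Icc_self hr)

lemma grad_bound (hH : Sm H) (h1 : Hom 1 H) : ∃ M : ℝ, ∀ x : E 3, x ≠ 0 → ‖x‖ ≤ ‖Psi H x‖ + M := by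
  have hc : ContinuousOn (fun x : E 3 => Psi H x - x) (sphere 0 1) := by
    intro x hx
    have hx0 : x ≠ 0 := ne0 (by simpa using hx)
    exact ((Psi_diff hH hx0).continuousAt.sub continuousAt_id).continuousWithinAt
  obtain ⟨M, hM⟩ := (isCompact_sphere (0 : E 3) 1).exists_bound_of_continuousOn hc
  refine ⟨M, fun x hx => ?_⟩
  have hn := norm_pos_iff.mpr hx
  have hu := norm_unit hn
  have h2 := hM (‖x‖⁻¹ • x) (by simpa using hu)
  have e : Psi H (‖x‖⁻¹ • x) - ‖x‖⁻¹ • x = Psi H x - x := by
    ext i
    have h3 := Hom.pd hH h1 i x hx ‖x‖⁻¹ (inv_pos.mpr hn)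
    simp only [sub_self, zpow_zero, one_mul] at h3
    change (pd i H (‖x‖⁻¹ • x) + (‖x‖⁻¹ • x) i) - (‖x‖⁻¹ • x) i = (pd i H x + x i) - x i
    rw [h3]; ring
  rw [e] at h2
  have h4 : ‖x‖ ≤ ‖Psi H x‖ + ‖Psi H x - x‖ := by
    have := norm_sub_le (Psi H x) (Psi H x - x)
    simpa using this
  linarith

/-- The area of the boundary `{F = 0}` of the exterior domain swept out by the generators. -/
theorem area_le (X : Stmt.Exterior 3) (hH : Sm H) (h1 : Hom 1 H) (hU : Sm U) (h0 : Hom 0 U)
    (hUpos : ∀ x : E 3, ‖x‖ = 1 → 0 < U x) (hdt : ∀ x : E 3, ‖x‖ = 1 → 0 ≤ dW H (U x) x)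
    (hinj : InjOn (Psi H) (Par U)) (himg : ∀ y, 0 ≤ X.F y → y ∈ Psi H '' Par U)
    (hin : ∀ x ∈ Par U, 0 ≤ X.F (Psi H x))
    (hlev : ∀ x ∈ Par U, X.F (Psi H x) = 0 → U x = ‖x‖)
    (hflux : ∀ x, x ≠ 0 → U x = ‖x‖ → 0 < ∑ i, Stmt.pd i X.F (Psi H x) * (x i / ‖x‖) ∧
      adjq X.g X.F (Psi H x) ≤ (∑ i, Stmt.pd i X.F (Psi H x) * (x i / ‖x‖)) ^ 2) :
    X.area X.F ≤ ENNReal.ofReal (S2 fun x => dW H (U x) x) := by
  have hG : Smooth X.F := X.dom.1
  have hGc : Continuous X.F := hG.continuous
  set F := X.F with hF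
  refine sSup_le ?_
  rintro _ ⟨Y, ⟨hX1, ⟨R, hX2⟩, hX3⟩, rfl⟩
  refine ENNReal.ofReal_le_ofReal ?_
  rw [T1.vol_eq']
  set W : Fin 3 → E 3 → ℝ := fun i y => √(mat X.g y).det * Y i y with hW
  -- the region where the metric is positive
  have hdet : ContDiff ℝ ∞ (fun x => (mat X.g x).det) := by
    simp only [Matrix.det_apply]
    refine ContDiff.sum fun σ _ => ?_
    have h1 : ContDiff ℝ ∞ (fun x => ∏ i, mat X.g x (σ i) i) :=
      contDiff_prod fun i _ => (X.smooth (σ i) i).1
    have h2 : ContDiff ℝ ∞ (fun x => ((Equiv.Perm.sign σ : ℤ) : ℝ) *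
        ∏ i, mat X.g x (σ i) i) := contDiff_const.mul h1
    have h3 : (fun x => Equiv.Perm.sign σ • ∏ i, mat X.g x (σ i) i) =
        fun x => ((Equiv.Perm.sign σ : ℤ) : ℝ) * ∏ i, mat X.g x (σ i) i := by
      funext x
      rw [Units.smul_def, zsmul_eq_mul]
    rw [h3]
    exact h2
  have hO : IsOpen {x : E 3 | 0 < (mat X.g x).det} := isOpen_lt continuous_const hdet.continuous
  have hGO : ∀ x, 0 ≤ F x → x ∈ {x : E 3 | 0 < (mat X.g x).det} := fun x hx =>
    (X.pos x hx).det_pos
  have hWs : ∀ i, ContDiffOn ℝ ∞ (W i) {x : E 3 | 0 < (mat X.g x).det} := fun i =>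
    (hdet.contDiffOn.sqrt fun x hx => (show 0 < (mat X.g x).det from hx).ne').mul
      (hX1 i).contDiffOn
  have hWR : ∀ i x, R < len x → W i x = 0 := fun i x hx => by
    simp only [hW, hX2 x hx i, mul_zero]
  obtain ⟨M, hM⟩ := grad_bound hH h1
  set R2 := R + M with hR2
  have hpdF : ∀ i, Continuous (Stmt.pd i F) := by
    intro i
    have h1 : Continuous fun x => fderiv ℝ F x (EuclideanSpace.single i 1) :=
      (hG.continuous_fderiv (by simp)).clm_apply continuous_const
    have h2 : Stmt.pd i F = fun x => fderiv ℝ F x (EuclideanSpace.single i 1) :=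
      funext fun x => pd_fderiv (hG.differentiable (by simp) x) i
    rw [h2]; exact h1
  set d : E 3 → ℝ := fun x => ∑ i, Stmt.pd i F (Psi H x) * (x i / ‖x‖) with hd
  have hΨc : ContinuousOn (Psi H) {x | x ≠ 0} := fun x hx =>
    (Psi_diff hH hx).continuousAt.continuousWithinAt
  have hdUc := dU_cont hH hU
  have hdWc := dW_contOn hH
  have hdUc' : ContinuousOn (fun x : E 3 => dW H (U (‖x‖⁻¹ • x)) (‖x‖⁻¹ • x)) {x | x ≠ 0} :=
    (comp_unit hdUc).mono fun x hx => by simpa using hx
  -- it is enough to allow a small error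
  have hmain : ∀ ε > 0, ∫ x in {x | 0 ≤ F x}, ∑ i, Stmt.pd i (W i) x ≤
      S2 (fun x => (1 + ε) * (dW H (U x) x + ε)) := by
    intro ε hε
    obtain ⟨δ, hδ, hδ2⟩ : ∃ δ > 0, ∀ x ∈ Par U, ‖x‖ ≤ R2 → F (Psi H x) < δ →
        0 < d x ∧ adjq X.g F (Psi H x) < (1 + ε) ^ 2 * d x ^ 2 ∧
        |dW H ‖x‖ (‖x‖⁻¹ • x)| < dW H (U (‖x‖⁻¹ • x)) (‖x‖⁻¹ • x) + ε := by
      obtain ⟨z0, hz0, hz0m⟩ := (isCompact_sphere (0 : E 3) 1).exists_isMinOn
        (NormedSpace.sphere_nonempty.mpr zero_le_one) hU.contOn
      have hz0n : ‖z0‖ = 1 := by simpa using hz0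
      set u0 := U z0 with hu0
      have hu0pos : 0 < u0 := hUpos z0 hz0n
      have hUge : ∀ x : E 3, x ≠ 0 → u0 ≤ U x := by
        intro x hx
        have hn := norm_unit (norm_pos_iff.mpr hx)
        have h2 : U (‖x‖⁻¹ • x) = U x := by
          rw [h0 x hx _ (inv_pos.mpr (norm_pos_iff.mpr hx))]; simp
        rw [← h2]
        exact hz0m (by simpa using hn)
      set A : Set (E 3) := {x | u0 ≤ ‖x‖ ∧ ‖x‖ ≤ R2} with hA
      have hAc : IsCompact A := by
        have : A = closedBall 0 R2 ∩ {x | u0 ≤ ‖x‖} := by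
          ext x; simp [hA, and_comm]
        rw [this]
        exact (isCompact_closedBall _ _).inter_right (isClosed_le continuous_const continuous_norm)
      have hA0 : A ⊆ {x | x ≠ 0} := by
        rintro x ⟨h2, -⟩ rfl
        simp at h2; linarith
      have hdc : ContinuousOn d {x | x ≠ 0} := by
        refine continuousOn_finsetSum _ fun i _ => ?_
        refine ((hpdF i).comp_continuousOn hΨc).mul ?_
        exact ((EuclideanSpace.proj (𝕜 := ℝ) i : E 3 →L[ℝ] ℝ).continuous.continuousOn).div
          continuous_norm.continuousOn fun x hx => (norm_pos_iff.mpr hx).ne'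
      have hadj : Continuous (adjq X.g F) := by
        have hgc : ∀ i j, Continuous fun y => mat X.g y i j := fun i j => (X.smooth i j).1.continuous
        unfold adjq
        simp only [Matrix.adjugate_fin_three, Fin.sum_univ_three, Matrix.of_apply, Matrix.cons_val',
          Matrix.cons_val_zero, Matrix.cons_val_one, Matrix.cons_val, Matrix.empty_val',
          Matrix.cons_val_fin_one]
        fun_prop
      set m : E 3 → ℝ := fun x => min (d x) (min ((1 + ε) ^ 2 * d x ^ 2 - adjq X.g F (Psi H x))
        (dW H (U (‖x‖⁻¹ • x)) (‖x‖⁻¹ • x) + ε - |dW H ‖x‖ (‖x‖⁻¹ • x)|)) with hm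
      have hmc : ContinuousOn m A := by
        refine (hdc.mono hA0).inf (ContinuousOn.inf ?_ ?_)
        · exact (continuousOn_const.mul ((hdc.mono hA0).pow 2)).sub
            (hadj.comp_continuousOn (hΨc.mono hA0))
        · exact ((hdUc'.mono hA0).add continuousOn_const).sub ((hdWc.mono hA0).abs)
      have hmpos : ∀ x, 0 < m x ↔ 0 < d x ∧ adjq X.g F (Psi H x) < (1 + ε) ^ 2 * d x ^ 2 ∧
          |dW H ‖x‖ (‖x‖⁻¹ • x)| < dW H (U (‖x‖⁻¹ • x)) (‖x‖⁻¹ • x) + ε := by
        intro x
        simp only [hm, lt_min_iff, sub_pos]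
      set K0 : Set (E 3) := A ∩ {x | 0 ≤ ‖x‖ - U x} ∩ {x | m x ≤ 0} with hK0
      have hK0c : IsCompact K0 := by
        have c1 : ContinuousOn (fun x : E 3 => ‖x‖ - U x) A := fun x hx =>
          (continuous_norm.continuousAt.sub (hU.contAt (hA0 hx))).continuousWithinAt
        have h3 : IsClosed (A ∩ {x | 0 ≤ ‖x‖ - U x}) :=
          c1.preimage_isClosed_of_isClosed hAc.isClosed isClosed_Ici
        have h4 : IsClosed K0 :=
          (hmc.mono inter_subset_left).preimage_isClosed_of_isClosed h3 isClosed_Iic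
        exact hAc.of_isClosed_subset h4 (inter_subset_left.trans inter_subset_left)
      have hK0P : K0 ⊆ Par U := fun x hx => ⟨hA0 hx.1.1, by
        have := hx.1.2
        simp only [mem_ofPred_eq, sub_nonneg] at this
        exact this⟩
      have hin0 : ∀ x ∈ Par U, ‖x‖ ≤ R2 → ¬ (0 < m x) → x ∈ K0 := by
        intro x hx hx1 hx2
        refine ⟨⟨⟨(hUge x hx.1).trans hx.2, hx1⟩, ?_⟩, not_lt.mp hx2⟩
        simp only [mem_ofPred_eq, sub_nonneg]; exact hx.2
      rcases K0.eq_empty_or_nonempty with he | hne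
      · refine ⟨1, one_pos, fun x hx hx1 _ => ?_⟩
        rw [← hmpos]
        by_contra hc
        have := hin0 x hx hx1 hc
        rw [he] at this
        exact this
      · have hFc : ContinuousOn (fun x => F (Psi H x)) K0 :=
          hGc.comp_continuousOn (hΨc.mono fun x hx => (hK0P hx).1)
        obtain ⟨z, hz, hmin⟩ := hK0c.exists_isMinOn hne hFc
        have hFz : 0 < F (Psi H z) := by
          rcases (hin z (hK0P hz)).eq_or_lt with h | h
          · exfalso
            have h2 := hlev z (hK0P hz) h.symm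
            have hz0 := (hK0P hz).1
            have hn := norm_unit (norm_pos_iff.mpr hz0)
            have h3 : U (‖z‖⁻¹ • z) = ‖z‖ := by
              rw [h0 z hz0 _ (inv_pos.mpr (norm_pos_iff.mpr hz0)), h2]; simp
            have h4 : ¬ (0 < m z) := not_lt.mpr hz.2
            rw [hmpos] at h4
            obtain ⟨h7, h8⟩ := hflux z hz0 h2
            apply h4
            refine ⟨h7, ?_, ?_⟩
            · refine lt_of_le_of_lt h8 ?_
              have h9 : 0 < d z := h7
              change d z ^ 2 < _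
              nlinarith [mul_pos hε h9, pow_pos h9 2, mul_pos (mul_pos hε hε) (pow_pos h9 2),
                mul_pos hε (pow_pos h9 2)]
            · have h5 := hdt _ hn
              rw [h3] at h5 ⊢
              rw [abs_of_nonneg h5]
              linarith
          · exact h
        refine ⟨F (Psi H z), hFz, fun x hx hx1 hlt => ?_⟩
        rw [← hmpos]
        by_contra hc
        have := hmin (hin0 x hx hx1 hc)
        exact absurd this (not_le.2 hlt)
    have hcut : ∀ k : ℝ, 1 ≤ k → 1 < k * δ → ∫ x, T1.T (k * F x) * ∑ i, Stmt.pd i (W i) x ≤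
        S2 (fun x => (1 + ε) * (dW H (U x) x + ε)) := by
      intro k hk hkδ
      have hk0 : 0 < k := by linarith
      obtain ⟨-, hb, hab⟩ := cut_ibp hG hO hGO hWs hWR hk0
      rw [hab, ← integral_neg]
      set b : E 3 → ℝ := fun y => -∑ i, deriv T1.T (k * F y) * (k * Stmt.pd i F y) * W i y with hbdef
      have hbi : Integrable b := hb.neg
      have hS0 : 0 ≤ S2 (fun x => (1 + ε) * (dW H (U x) x + ε)) := by
        refine H353.S2_nonneg fun x hx => ?_
        have := hdt x hx
        positivity
      have hsmall : ∀ x ∈ Par U, ‖x‖ ≤ R2 → deriv T1.T (k * F (Psi H x)) ≠ 0 →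
          F (Psi H x) < δ := by
        intro x hx hx1 hx2
        have h01 : k * F (Psi H x) < 1 := by
          by_contra hc
          exact hx2 (T_deriv_one (not_lt.mp hc))
        by_contra hc
        have := mul_le_mul_of_nonneg_left (not_lt.mp hc) hk0.le
        linarith
      rw [integral_eq_lintegral_pos_part_sub_lintegral_neg_part hbi]
      have hneg : 0 ≤ (∫⁻ a, ENNReal.ofReal (-b a)).toReal := ENNReal.toReal_nonneg
      refine (sub_le_self _ hneg).trans (ENNReal.toReal_le_of_le_ofReal hS0 ?_)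
      have himgeq : Psi H '' Par U = {y | 0 ≤ F y} := by
        ext y
        constructor
        · rintro ⟨x, hx, rfl⟩; exact hin x hx
        · intro hy; exact himg y hy
      have hmi : MeasurableSet (Psi H '' Par U) := by
        rw [himgeq]; exact (isClosed_le continuous_const hGc).measurableSet
      have e1 : ∫⁻ y, ENNReal.ofReal (b y) = ∫⁻ y in Psi H '' Par U, ENNReal.ofReal (b y) := by
        rw [← lintegral_indicator hmi]
        refine lintegral_congr fun y => ?_
        by_cases hy : y ∈ Psi H '' Par U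
        · rw [indicator_of_mem hy]
        · rw [indicator_of_notMem hy]
          have hy' : F y < 0 := by
            rw [himgeq] at hy
            exact not_le.mp hy
          have : deriv T1.T (k * F y) = 0 := T_deriv_zero (mul_neg_of_pos_of_neg hk0 hy').le
          simp [hbdef, this]
      rw [e1, lintegral_image_eq_lintegral_abs_det_fderiv_mul volume (Par_meas hU)
        (f' := fun x => fderiv ℝ (Psi H) x)
        (fun x hx => (Psi_diff hH hx.1).hasFDerivAt.hasFDerivWithinAt) hinj]
      set c : E 3 → ℝ := fun x => deriv T1.T (k * F (Psi H x)) * (k * d x) with hc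
      have hcpos : ∀ x ∈ Par U, ‖x‖ ≤ R2 → 0 ≤ c x := by
        intro x hx hx1
        by_cases hz : deriv T1.T (k * F (Psi H x)) = 0
        · simp only [hc, hz, zero_mul]; exact le_rfl
        · exact mul_nonneg (T_deriv_nonneg _)
            (mul_nonneg hk0.le (hδ2 x hx hx1 (hsmall x hx hx1 hz)).1.le)
      set Pb : Set (E 3) := Par U ∩ closedBall 0 R2 with hPb
      have hPbm : MeasurableSet Pb := (Par_meas hU).inter measurableSet_closedBall
      set h : E 3 → ℝ≥0∞ := fun x => ENNReal.ofReal (|dW H ‖x‖ (‖x‖⁻¹ • x)| / ‖x‖ ^ 2 *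
        ((1 + ε) * c x)) with hh
      have e2 : ∫⁻ x in Par U, ENNReal.ofReal |(fderiv ℝ (Psi H) x).det| *
          ENNReal.ofReal (b (Psi H x)) ≤ ∫⁻ x, Pb.indicator h x := by
        rw [← lintegral_indicator (Par_meas hU)]
        refine lintegral_mono fun x => ?_
        by_cases hx : x ∈ Par U
        · rw [indicator_of_mem hx]
          have hx0 := hx.1
          have hxn := norm_pos_iff.mpr hx0
          by_cases hxR : ‖x‖ ≤ R2
          · have hxb : x ∈ Pb := ⟨hx, by simpa using hxR⟩
            rw [indicator_of_mem hxb]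
            have h3 : (fderiv ℝ (Psi H) x).det = dW H ‖x‖ (‖x‖⁻¹ • x) / ‖x‖ ^ 2 := by
              have := det_DPsi hH h1 (norm_unit hxn) hxn
              rwa [smul_inv_smul₀ hxn.ne'] at this
            rw [h3, abs_div, abs_of_nonneg (by positivity : (0:ℝ) ≤ ‖x‖ ^ 2),
              ← ENNReal.ofReal_mul (by positivity)]
            refine ENNReal.ofReal_le_ofReal ?_
            refine mul_le_mul_of_nonneg_left ?_ (by positivity)
            have h5 : b (Psi H x) = deriv T1.T (k * F (Psi H x)) * (k *
                -(√(mat X.g (Psi H x)).det * ∑ i, Stmt.pd i F (Psi H x) * Y i (Psi H x))) := by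
              simp only [hbdef, hW]
              rw [Finset.mul_sum, ← Finset.sum_neg_distrib, ← Finset.sum_neg_distrib,
                Finset.mul_sum, Finset.mul_sum]
              refine Finset.sum_congr rfl fun i _ => ?_
              ring
            rw [h5]
            by_cases hz : deriv T1.T (k * F (Psi H x)) = 0
            · simp only [hc, hz, zero_mul, mul_zero]; exact le_rfl
            · obtain ⟨q1, q2, -⟩ := hδ2 x hx hxR (hsmall x hx hxR hz)
              have hpd := X.pos _ (hin x hx)
              have hcs := adj_cs hpd (fun i => Stmt.pd i F (Psi H x)) (fun i => Y i (Psi H x))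
              have hY := hX3 _ (hin x hx)
              have hY' : ∑ i, ∑ j, mat X.g (Psi H x) i j * Y i (Psi H x) * Y j (Psi H x) ≤ 1 := hY
              have hA0 : 0 ≤ adjq X.g F (Psi H x) ∨ adjq X.g F (Psi H x) < 0 := le_or_gt _ _
              have hkey : √(mat X.g (Psi H x)).det * |∑ i, Stmt.pd i F (Psi H x) * Y i (Psi H x)| ≤
                  (1 + ε) * d x := by
                have hsq : (√(mat X.g (Psi H x)).det *
                    |∑ i, Stmt.pd i F (Psi H x) * Y i (Psi H x)|) ^ 2 ≤ ((1 + ε) * d x) ^ 2 := by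
                  rw [mul_pow, Real.sq_sqrt hpd.det_pos.le, sq_abs, mul_pow]
                  refine hcs.trans ?_
                  have q3 : adjq X.g F (Psi H x) = ∑ i, ∑ j, (mat X.g (Psi H x)).adjugate i j *
                    Stmt.pd i F (Psi H x) * Stmt.pd j F (Psi H x) := rfl
                  rw [← q3]
                  have hYn : 0 ≤ ∑ i, ∑ j, mat X.g (Psi H x) i j * Y i (Psi H x) *
                      Y j (Psi H x) := by
                    have h := hpd.posSemidef.dotProduct_mulVec_nonneg (fun i => Y i (Psi H x))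
                    have e : star (fun i => Y i (Psi H x)) ⬝ᵥ (mat X.g (Psi H x)).mulVec
                        (fun i => Y i (Psi H x)) = ∑ i, ∑ j, mat X.g (Psi H x) i j *
                        Y i (Psi H x) * Y j (Psi H x) := by
                      simp only [dotProduct, Matrix.mulVec, Pi.star_apply, star_trivial,
                        Finset.mul_sum]
                      exact Finset.sum_congr rfl fun i _ => Finset.sum_congr rfl fun j _ => by ring
                    rwa [e] at h
                  rcases hA0 with hA0 | hA0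
                  · calc adjq X.g F (Psi H x) * _ ≤ adjq X.g F (Psi H x) * 1 :=
                        mul_le_mul_of_nonneg_left hY' hA0
                      _ ≤ _ := by rw [mul_one]; exact q2.le
                  · have := mul_nonpos_of_nonpos_of_nonneg hA0.le hYn
                    refine this.trans (by positivity)
                exact abs_le_of_sq_le_sq' hsq (by positivity) |>.2
              simp only [hc]
              have h9 : (1 + ε) * (deriv T1.T (k * F (Psi H x)) * (k * d x)) =
                  deriv T1.T (k * F (Psi H x)) * (k * ((1 + ε) * d x)) := by ring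
              rw [h9]
              refine mul_le_mul_of_nonneg_left ?_ (T_deriv_nonneg _)
              refine mul_le_mul_of_nonneg_left ?_ hk0.le
              refine le_trans ?_ hkey
              rw [← mul_neg]
              exact mul_le_mul_of_nonneg_left (neg_le_abs _) (Real.sqrt_nonneg _)
          · have hR : R < len (Psi H x) := by
              have := hM x hx0
              simp only [len]
              rw [hR2] at hxR
              linarith [not_le.mp hxR]
            have hb0 : b (Psi H x) = 0 := by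
              simp only [hbdef]
              rw [neg_eq_zero]
              refine Finset.sum_eq_zero fun i _ => ?_
              rw [hWR i _ hR, mul_zero]
            rw [hb0]; simp
        · rw [indicator_of_notMem hx]
          exact zero_le
      refine e2.trans ?_
      have hPb0 : Pb ⊆ {x | x ≠ 0} := fun x hx => hx.1.1
      have hhm : Measurable (Pb.indicator h) := by
        have hTc : Continuous (deriv T1.T) := T1.T_smooth.continuous_deriv (by simp)
        have hnc : ContinuousOn (fun x : E 3 => ‖x‖) Pb := continuous_norm.continuousOn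
        have hn0 : ∀ x ∈ Pb, ‖x‖ ≠ 0 := fun x hx => (norm_pos_iff.mpr hx.1.1).ne'
        have hcc : ContinuousOn c Pb := by
          refine (hTc.comp_continuousOn (continuousOn_const.mul
            (hGc.comp_continuousOn (hΨc.mono hPb0)))).mul (continuousOn_const.mul ?_)
          refine continuousOn_finsetSum _ fun i _ => ?_
          refine ((hpdF i).comp_continuousOn (hΨc.mono hPb0)).mul ?_
          exact ((EuclideanSpace.proj (𝕜 := ℝ) i : E 3 →L[ℝ] ℝ).continuous.continuousOn).div hnc hn0
        have hhc : ContinuousOn h Pb := by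
          refine ENNReal.continuous_ofReal.comp_continuousOn ?_
          refine ContinuousOn.mul ?_ (continuousOn_const.mul hcc)
          exact ((hdWc.mono hPb0).abs).div (hnc.pow 2) fun x hx => pow_ne_zero 2 (hn0 x hx)
        classical
        rw [← Set.piecewise_eq_indicator]
        exact ContinuousOn.measurable_piecewise hhc continuousOn_const hPbm
      rw [lint_polar _ hhm]
      have e3 : ∀ θ : sphere (0 : E 3) 1, (∫⁻ r in Ioi (0:ℝ), ENNReal.ofReal (r ^ (3 - 1)) *
          Pb.indicator h (r • (θ : E 3))) ≤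
          ENNReal.ofReal ((1 + ε) * (dW H (U (θ : E 3)) (θ : E 3) + ε)) := by
        intro θ
        have hθ : ‖(θ : E 3)‖ = 1 := norm_eq_of_mem_sphere θ
        have hθ0 := ne0 hθ
        set u := U (θ : E 3) with hu
        have hu0 : 0 < u := hUpos _ hθ
        set g' : ℝ → ℝ := fun r => deriv T1.T (k * F (Psi H (r • (θ : E 3)))) *
          (k * ∑ i, Stmt.pd i F (Psi H (r • (θ : E 3))) * (θ : E 3) i) with hg'
        have hnorm : ∀ r, 0 < r → ‖r • (θ : E 3)‖ = r := fun r hr => by
          rw [norm_smul, hθ, Real.norm_eq_abs, abs_of_pos hr, mul_one]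
        have hparam : ∀ r, 0 < r → (r • (θ : E 3) ∈ Par U ↔ u ≤ r) := by
          intro r hr
          unfold Par
          simp only [mem_ofPred_eq]
          rw [h0 _ hθ0 r hr, hnorm r hr]
          simp [hr.ne', hθ0, hu]
        have hparam' : ∀ r, 0 < r → (r • (θ : E 3) ∈ Pb ↔ r ∈ Icc u R2) := by
          intro r hr
          rw [hPb, mem_inter_iff, hparam r hr, mem_closedBall_zero_iff, hnorm r hr, mem_Icc]
        have hdr : ∀ r : ℝ, 0 < r → d (r • (θ : E 3)) =
            ∑ i, Stmt.pd i F (Psi H (r • (θ : E 3))) * (θ : E 3) i := by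
          intro r hr
          simp only [hd]
          rw [hnorm r hr]
          refine Finset.sum_congr rfl fun i _ => ?_
          congr 1
          simp; field_simp
        have hcg : ∀ r : ℝ, 0 < r → c (r • (θ : E 3)) = g' r := by
          intro r hr
          simp only [hc, hg']
          rw [hdr r hr]
        have hpt : ∀ r ∈ Ioi (0:ℝ), ENNReal.ofReal (r ^ (3 - 1)) *
            Pb.indicator h (r • (θ : E 3)) ≤
            (Icc u R2).indicator (fun r => ENNReal.ofReal ((1 + ε) * (dW H u θ + ε)) *
              ENNReal.ofReal (g' r)) r := by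
          intro r hr
          have hr : 0 < r := hr
          by_cases hru : r ∈ Icc u R2
          · have hmem := (hparam' r hr).mpr hru
            rw [indicator_of_mem hmem, indicator_of_mem hru]
            simp only [hh]
            have hn := hnorm r hr
            have hnn : r⁻¹ • r • (θ : E 3) = θ := inv_smul_smul₀ hr.ne' _
            have hPm := (hparam r hr).mpr hru.1
            have hR : ‖r • (θ : E 3)‖ ≤ R2 := by rw [hn]; exact hru.2
            have hcp := hcpos _ hPm hR
            rw [hcg r hr] at hcp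
            rw [hn, hnn, hcg r hr]
            have hdn : 0 ≤ dW H u θ + ε := by have := hdt θ hθ; linarith
            rw [← ENNReal.ofReal_mul (by positivity), ← ENNReal.ofReal_mul (by positivity)]
            refine ENNReal.ofReal_le_ofReal ?_
            have e4 : r ^ (3-1) * (|dW H r θ| / r ^ 2 * ((1 + ε) * g' r)) =
                |dW H r θ| * ((1 + ε) * g' r) := by
              norm_num; field_simp
            rw [e4]
            by_cases hz : deriv T1.T (k * F (Psi H (r • (θ : E 3)))) = 0
            · simp [hg', hz]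
            · have h6 := (hδ2 _ hPm hR (hsmall _ hPm hR hz)).2.2
              rw [hn, hnn] at h6
              have h7 : |dW H r θ| * ((1 + ε) * g' r) ≤ (dW H u θ + ε) * ((1 + ε) * g' r) :=
                mul_le_mul_of_nonneg_right h6.le (by positivity)
              linarith
          · rw [indicator_of_notMem (fun h => hru ((hparam' r hr).mp h)), mul_zero]
            exact zero_le
        refine (setLIntegral_mono' measurableSet_Ioi hpt).trans ?_
        rw [← lintegral_indicator measurableSet_Ioi]
        have hsub : (∫⁻ r, (Ioi (0:ℝ)).indicator (fun r => (Icc u R2).indicator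
            (fun r => ENNReal.ofReal ((1 + ε) * (dW H u θ + ε)) * ENNReal.ofReal (g' r)) r) r) ≤
            ∫⁻ r, (Icc u R2).indicator
            (fun r => ENNReal.ofReal ((1 + ε) * (dW H u θ + ε)) * ENNReal.ofReal (g' r)) r :=
          lintegral_mono fun r => indicator_le_self _ _ _
        refine hsub.trans ?_
        rw [lintegral_indicator measurableSet_Icc, lintegral_const_mul' _ _ ENNReal.ofReal_ne_top]
        have hgi := gen_int hH h1 hG hθ hu0 (k := k) (R2 := R2) (fun r hr1 hr2 => by
          have hr0 : 0 < r := lt_of_lt_of_le hu0 hr1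
          have := hcpos _ ((hparam r hr0).mpr hr1) (by rw [hnorm r hr0]; exact hr2)
          rwa [hcg r hr0] at this)
        calc ENNReal.ofReal ((1 + ε) * (dW H u θ + ε)) * ∫⁻ r in Icc u R2, ENNReal.ofReal (g' r)
            ≤ ENNReal.ofReal ((1 + ε) * (dW H u θ + ε)) * 1 := mul_le_mul_right hgi _
          _ = _ := mul_one _
      refine (lintegral_mono e3).trans_eq ?_
      have hci : ContinuousOn (fun x : E 3 => (1 + ε) * (dW H (U x) x + ε)) (sphere 0 1) :=
        continuousOn_const.mul (hdUc.add continuousOn_const)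
      rw [← ofReal_integral_eq_lintegral_ofReal (H353.int_sph hci)]
      · rfl
      · refine Eventually.of_forall fun θ => ?_
        have := hdt θ (norm_eq_of_mem_sphere θ)
        simp only [Pi.zero_apply]
        positivity
    -- pass to the limit
    have hdivc : ContinuousOn (fun x => ∑ i, Stmt.pd i (W i) x)
        {x : E 3 | 0 < (mat X.g x).det} := by
      refine continuousOn_finsetSum _ fun i _ => ?_
      have h1 : ContinuousOn (fun x => fderiv ℝ (W i) x (EuclideanSpace.single i 1))
          {x : E 3 | 0 < (mat X.g x).det} :=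
        ((hWs i).continuousOn_fderiv_of_isOpen hO (by simp)).clm_apply continuousOn_const
      refine h1.congr fun x hx => ?_
      exact pd_fderiv (((hWs i).contDiffAt (hO.mem_nhds hx)).differentiableAt (by simp)) i
    have hcl : IsClosed {x : E 3 | 0 ≤ F x} := isClosed_le continuous_const hGc
    have hint : IntegrableOn (fun x => ∑ i, Stmt.pd i (W i) x) {x : E 3 | 0 ≤ F x} := by
      have hK : IsCompact ({x : E 3 | 0 ≤ F x} ∩ closedBall 0 R) :=
        (isCompact_closedBall _ _).inter_left hcl
      have h0 : ContinuousOn (fun x => ∑ i, Stmt.pd i (W i) x)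
          ({x : E 3 | 0 ≤ F x} ∩ closedBall 0 R) := hdivc.mono fun x hx => hGO x hx.1
      have h1 := h0.integrableOn_compact hK (μ := volume)
      refine h1.of_forall_sdiff_eq_zero hcl.measurableSet fun x hx => ?_
      have hx2 : R < len x := by
        by_contra hc
        exact hx.2 ⟨hx.1, by simpa [len] using not_lt.1 hc⟩
      refine Finset.sum_eq_zero fun i _ => ?_
      have h2 : W i =ᶠ[𝓝 x] fun _ => 0 := by
        filter_upwards [(isOpen_lt continuous_const T1.len_continuous).mem_nhds hx2] with y hy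
        exact hWR i y hy
      rw [pd_congr' h2]
      simp [Stmt.pd, lineDeriv]
    have hnull : ∀ᵐ x ∂(volume.restrict {x : E 3 | 0 ≤ F x}), 0 < F x := by
      rw [ae_restrict_iff' hcl.measurableSet]
      have hz : (volume : Measure (E 3)) (Psi H '' {x | x ≠ 0 ∧ U x = ‖x‖}) = 0 := by
        refine addHaar_image_eq_zero_of_differentiableOn_of_addHaar_eq_zero _ ?_ (level_zero hU h0)
        intro x hx
        exact (Psi_diff hH hx.1).differentiableWithinAt
      have h2 : ∀ᵐ x ∂(volume : Measure (E 3)), x ∉ Psi H '' {x | x ≠ 0 ∧ U x = ‖x‖} :=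
        measure_eq_zero_iff_ae_notMem.mp hz
      filter_upwards [h2] with y hy hy0
      refine lt_of_le_of_ne hy0 fun he => hy ?_
      obtain ⟨x, hx, rfl⟩ := himg y hy0
      exact ⟨x, ⟨hx.1, hlev x hx he.symm⟩, rfl⟩
    have hlimk : Tendsto (fun j : ℕ => ∫ x, T1.T (((j : ℝ) + 1) * F x) * ∑ i, Stmt.pd i (W i) x)
        atTop (𝓝 (∫ x in {x | 0 ≤ F x}, ∑ i, Stmt.pd i (W i) x)) := by
      have h1 : ∀ j : ℕ, ∫ x, T1.T (((j : ℝ) + 1) * F x) * ∑ i, Stmt.pd i (W i) x =
          ∫ x in {x | 0 ≤ F x}, T1.T (((j : ℝ) + 1) * F x) * ∑ i, Stmt.pd i (W i) x := by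
        intro j
        refine (setIntegral_eq_integral_of_forall_compl_eq_zero fun x hx => ?_).symm
        have hx' : F x < 0 := not_le.1 hx
        rw [show T1.T (((j : ℝ) + 1) * F x) = 0 from
          Real.smoothTransition.zero_of_nonpos (mul_neg_of_pos_of_neg (by positivity) hx').le,
          zero_mul]
      simp only [h1]
      refine tendsto_integral_of_dominated_convergence
        (fun x => ‖∑ i, Stmt.pd i (W i) x‖) (fun j => ?_) hint.norm (fun j => ?_) ?_
      · exact ((cut_smooth hG _).continuous.aestronglyMeasurable).mul hint.aestronglyMeasurable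
      · refine Eventually.of_forall fun x => ?_
        rw [norm_mul]
        have h2 : ‖T1.T (((j : ℝ) + 1) * F x)‖ ≤ 1 := by
          rw [Real.norm_eq_abs, abs_of_nonneg (Real.smoothTransition.nonneg _)]
          exact Real.smoothTransition.le_one _
        exact mul_le_of_le_one_left (norm_nonneg _) h2
      · filter_upwards [hnull] with x hx
        refine Tendsto.congr' ?_ tendsto_const_nhds
        obtain ⟨N, hN⟩ := exists_nat_gt (1 / F x)
        filter_upwards [eventually_ge_atTop N] with j hj
        have h3 : 1 ≤ ((j : ℝ) + 1) * F x := by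
          have h4 : (N : ℝ) ≤ j := by exact_mod_cast hj
          have h5 : 1 / F x ≤ (j : ℝ) + 1 := by linarith
          rwa [div_le_iff₀ hx] at h5
        rw [show T1.T (((j : ℝ) + 1) * F x) = 1 from Real.smoothTransition.one_of_one_le h3, one_mul]
    refine le_of_tendsto hlimk ?_
    obtain ⟨N, hN⟩ := exists_nat_gt (1 / δ)
    filter_upwards [eventually_ge_atTop N] with j hj
    have h4 : (N : ℝ) ≤ j := by exact_mod_cast hj
    refine hcut _ (by linarith [Nat.cast_nonneg (α := ℝ) j]) ?_
    have h5 : 1 / δ < (j : ℝ) + 1 := by linarith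
    rwa [div_lt_iff₀ hδ] at h5
  -- let the error tend to zero
  have hS : ∀ ε : ℝ, S2 (fun x => (1 + ε) * (dW H (U x) x + ε)) =
      (1 + ε) * (S2 (fun x => dW H (U x) x) + 4 * Real.pi * ε) := by
    intro ε
    rw [H353.S2_cmul, H353.S2_add hdUc continuousOn_const, H353.S2_const]
  set s0 := S2 fun x => dW H (U x) x with hs0
  have htend : Tendsto (fun ε : ℝ => (1 + ε) * (s0 + 4 * Real.pi * ε)) (𝓝[>] 0) (𝓝 s0) := by
    have hcont : Continuous fun ε : ℝ => (1 + ε) * (s0 + 4 * Real.pi * ε) := by fun_prop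
    have h := hcont.tendsto 0
    simp only [add_zero, mul_zero, one_mul] at h
    exact h.mono_left nhdsWithin_le_nhds
  refine ge_of_tendsto htend ?_
  filter_upwards [self_mem_nhdsWithin] with ε hε
  have h := hmain ε hε
  rwa [hS] at h

end Vale.Agent.P366.H707
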